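import Vale.Agent.P209N.Defs

/-! P209 necessity, file Bump (helper lemma names end in `_Bump`).

PLAN. `Emb.bij`: injective by `eq_zero_of_om`, then `LinearMap.injective_iff_surjective`. `exists_bump`:
`k z = if z ∈ ψ '' ball 0 ρ then u (Function.invFunOn ψ (ball 0 ρ) z) else 0`. At `z = ψ y`: `ψ` is `ContDiffAt` at
`y` with invertible derivative (`LinearEquiv.ofBijective .. .toContinuousLinearEquiv`); let
`φ = ContDiffAt.localInverse`; it is `ContDiffAt` at `ψ y` (`ContDiffAt.to_localInverse`), tends to `y`, and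
`ψ (φ w) = w` near `ψ y` (`HasStrictFDerivAt.eventually_right_inverse`), so `k = u ∘ φ` near `ψ y`. At a point
outside the compact set `ψ '' closedBall 0 ρ1`, `k` vanishes in a neighbourhood. -/

namespace Vale.Agent.P209N

open Complex Metric Set Finset Filter Module
open scoped InnerProductSpace Real ComplexConjugate Topology

variable {E : Type*} [NormedAddCommGroup E] [InnerProductSpace ℂ E] [NormedSpace ℝ E]
  [IsScalarTower ℝ ℂ E] [FiniteDimensional ℝ E]

theorem Emb.bij {O : Set E} {ψ : E → E} {ρ : ℝ} (h : Emb O ψ ρ) {y : E} (hy : y ∈ ball (0 : E) ρ) :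
    Function.Bijective (fderiv ℝ ψ y) := by
  have hi : Function.Injective (fderiv ℝ ψ y) := by
    refine (injective_iff_map_eq_zero _).2 fun a ha => eq_zero_of_om fun v => ?_
    rw [← h.symp y hy, ha, om_zero_left]
  exact ⟨hi, (LinearMap.injective_iff_surjective (f := (fderiv ℝ ψ y : E →ₗ[ℝ] E))).1 hi⟩

theorem exists_bump {O : Set E} {ψ : E → E} {ρ : ℝ} (h : Emb O ψ ρ) {u : E → ℝ}
    (hu : ContDiff ℝ 2 u) {ρ1 : ℝ} (h1 : ρ1 < ρ) (h0 : ∀ y, ρ1 < ‖y‖ → u y = 0) :
    ∃ k : E → ℝ, ContDiff ℝ 2 k ∧ (∀ y ∈ ball (0 : E) ρ, k (ψ y) = u y) ∧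
      ∀ z ∉ ψ '' closedBall 0 ρ1, k z = 0 := by
  classical
  have : CompleteSpace E := FiniteDimensional.complete ℝ E
  have : ProperSpace E := FiniteDimensional.proper ℝ E
  let k : E → ℝ := fun z =>
    if z ∈ ψ '' ball (0 : E) ρ then u (Function.invFunOn ψ (ball (0 : E) ρ) z) else 0
  have hk : ∀ y ∈ ball (0 : E) ρ, k (ψ y) = u y := fun y hy => by
    simp only [k]
    rw [if_pos (mem_image_of_mem ψ hy), h.inj.leftInvOn_invFunOn hy]
  have hz : ∀ z ∉ ψ '' closedBall 0 ρ1, k z = 0 := fun z hz => by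
    by_cases h2 : z ∈ ψ '' ball (0 : E) ρ
    · obtain ⟨y, hy, rfl⟩ := h2
      rw [hk y hy]
      refine h0 y (not_le.1 fun e => hz (mem_image_of_mem ψ (mem_closedBall_zero_iff.2 e)))
    · exact if_neg h2
  refine ⟨k, contDiff_iff_contDiffAt.2 fun z => ?_, hk, hz⟩
  have hsub : closedBall (0 : E) ρ1 ⊆ ball 0 ρ := closedBall_subset_ball h1
  by_cases h2 : z ∈ ψ '' closedBall (0 : E) ρ1
  · obtain ⟨y, hy, rfl⟩ := h2
    have hy' := hsub hy
    have hc : ContDiffAt ℝ 2 ψ y := h.smooth.contDiffAt (isOpen_ball.mem_nhds hy')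
    let L : E ≃L[ℝ] E :=
      (LinearEquiv.ofBijective (fderiv ℝ ψ y : E →ₗ[ℝ] E) (h.bij hy')).toContinuousLinearEquiv
    have hd : HasFDerivAt ψ (L : E →L[ℝ] E) y :=
      (hc.differentiableAt two_ne_zero).hasFDerivAt.congr_fderiv
        (ContinuousLinearMap.ext fun _ => rfl)
    have hs := hc.hasStrictFDerivAt' hd two_ne_zero
    refine (hu.contDiffAt.comp _ (hc.to_localInverse hd two_ne_zero)).congr_of_eventuallyEq ?_
    filter_upwards [hs.eventually_right_inverse,
      hs.localInverse_tendsto.eventually (isOpen_ball.mem_nhds hy')] with w hw hw'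
    have := hk _ hw'
    rw [hw] at this
    exact this
  · have hcl : IsClosed (ψ '' closedBall (0 : E) ρ1) :=
      ((isCompact_closedBall 0 ρ1).image_of_continuousOn
        (h.smooth.continuousOn.mono hsub)).isClosed
    refine (contDiffAt_const (c := (0 : ℝ))).congr_of_eventuallyEq ?_
    filter_upwards [hcl.isOpen_compl.mem_nhds h2] with w hw
    exact hz w hw

end Vale.Agent.P209N
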