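import Vale.Agent.P209.Defs

/-! P209 necessity: definitions and basic lemmas (finished file, do not change).
Overview in `notes/P209N.md`. -/

namespace Vale.Agent.P209N

open Complex Metric Set Finset
open scoped InnerProductSpace Real ComplexConjugate

section basic

variable {E : Type*} [NormedAddCommGroup E] [InnerProductSpace ℂ E]

/-- the symplectic form -/
noncomputable def om (x y : E) : ℝ := (⟪x, y⟫_ℂ).im

/-- the real inner product -/
noncomputable def ip (x y : E) : ℝ := (⟪x, y⟫_ℂ).re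

theorem om_add_left (x y z : E) : om (x + y) z = om x z + om y z := by
  simp only [om, inner_add_left, add_im]

theorem om_add_right (x y z : E) : om x (y + z) = om x y + om x z := by
  simp only [om, inner_add_right, add_im]

theorem om_sub_left (x y z : E) : om (x - y) z = om x z - om y z := by
  simp only [om, inner_sub_left, sub_im]

theorem om_sub_right (x y z : E) : om x (y - z) = om x y - om x z := by
  simp only [om, inner_sub_right, sub_im]

theorem om_neg_left (x y : E) : om (-x) y = -om x y := by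
  simp only [om, inner_neg_left, neg_im]

theorem om_neg_right (x y : E) : om x (-y) = -om x y := by
  simp only [om, inner_neg_right, neg_im]

theorem om_zero_left (x : E) : om 0 x = 0 := by simp only [om, inner_zero_left, zero_im]

theorem om_zero_right (x : E) : om x 0 = 0 := by simp only [om, inner_zero_right, zero_im]

theorem om_comm (x y : E) : om x y = -om y x := by
  rw [om, om, ← inner_conj_symm, conj_im]

theorem om_self (x : E) : om x x = 0 := by linarith [om_comm x x]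

theorem ip_add_left (x y z : E) : ip (x + y) z = ip x z + ip y z := by
  simp only [ip, inner_add_left, add_re]

theorem ip_add_right (x y z : E) : ip x (y + z) = ip x y + ip x z := by
  simp only [ip, inner_add_right, add_re]

theorem ip_sub_left (x y z : E) : ip (x - y) z = ip x z - ip y z := by
  simp only [ip, inner_sub_left, sub_re]

theorem ip_sub_right (x y z : E) : ip x (y - z) = ip x y - ip x z := by
  simp only [ip, inner_sub_right, sub_re]

theorem ip_neg_left (x y : E) : ip (-x) y = -ip x y := by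
  simp only [ip, inner_neg_left, neg_re]

theorem ip_neg_right (x y : E) : ip x (-y) = -ip x y := by
  simp only [ip, inner_neg_right, neg_re]

theorem ip_zero_left (x : E) : ip 0 x = 0 := by simp only [ip, inner_zero_left, zero_re]

theorem ip_zero_right (x : E) : ip x 0 = 0 := by simp only [ip, inner_zero_right, zero_re]

theorem ip_comm (x y : E) : ip x y = ip y x := by
  rw [ip, ip, ← inner_conj_symm, conj_re]

theorem ip_self (x : E) : ip x x = ‖x‖ ^ 2 := inner_self_eq_norm_sq (𝕜 := ℂ) x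

theorem om_smul_left (c : ℂ) (x y : E) : om (c • x) y = c.re * om x y - c.im * ip x y := by
  simp only [om, ip, inner_smul_left, mul_im, conj_re, conj_im]
  ring

theorem om_smul_right (c : ℂ) (x y : E) : om x (c • y) = c.re * om x y + c.im * ip x y := by
  simp only [om, ip, inner_smul_right, mul_im]

theorem ip_smul_left (c : ℂ) (x y : E) : ip (c • x) y = c.re * ip x y + c.im * om x y := by
  simp only [om, ip, inner_smul_left, mul_re, conj_re, conj_im]
  ring

theorem ip_smul_right (c : ℂ) (x y : E) : ip x (c • y) = c.re * ip x y - c.im * om x y := by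
  simp only [om, ip, inner_smul_right, mul_re]

theorem om_smul_smul (c : ℂ) (x y : E) : om (c • x) (c • y) = ‖c‖ ^ 2 * om x y := by
  rw [om_smul_left, om_smul_right, ip_smul_right, Complex.sq_norm, normSq_apply]
  ring

theorem abs_om_le (x y : E) : |om x y| ≤ ‖x‖ * ‖y‖ :=
  (abs_im_le_norm _).trans (norm_inner_le_norm x y)

theorem abs_ip_le (x y : E) : |ip x y| ≤ ‖x‖ * ‖y‖ :=
  (abs_re_le_norm _).trans (norm_inner_le_norm x y)

theorem norm_add_sq_ip (x y : E) : ‖x + y‖ ^ 2 = ‖x‖ ^ 2 + 2 * ip x y + ‖y‖ ^ 2 :=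
  norm_add_sq (𝕜 := ℂ) x y

theorem eq_zero_of_om {x : E} (h : ∀ v, om x v = 0) : x = 0 := by
  have h1 := h (I • x)
  rw [om_smul_right, I_re, I_im, zero_mul, zero_add, one_mul, ip_self] at h1
  exact norm_eq_zero.1 (pow_eq_zero_iff two_ne_zero |>.1 h1)

theorem om_sum_left {ι : Type*} (s : Finset ι) (f : ι → E) (y : E) :
    om (∑ i ∈ s, f i) y = ∑ i ∈ s, om (f i) y := by
  simp only [om, sum_inner, im_sum]

theorem om_sum_right {ι : Type*} (s : Finset ι) (x : E) (f : ι → E) :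
    om x (∑ i ∈ s, f i) = ∑ i ∈ s, om x (f i) := by
  simp only [om, inner_sum, im_sum]

theorem ip_sum_left {ι : Type*} (s : Finset ι) (f : ι → E) (y : E) :
    ip (∑ i ∈ s, f i) y = ∑ i ∈ s, ip (f i) y := by
  simp only [ip, sum_inner, re_sum]

variable [NormedSpace ℝ E] [IsScalarTower ℝ ℂ E]

theorem rsmul (r : ℝ) (x : E) : r • x = (r : ℂ) • x := (algebraMap_smul ℂ r x).symm

theorem om_rsmul_left (r : ℝ) (x y : E) : om (r • x) y = r * om x y := by
  rw [rsmul, om_smul_left, ofReal_re, ofReal_im, zero_mul, sub_zero]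

theorem om_rsmul_right (r : ℝ) (x y : E) : om x (r • y) = r * om x y := by
  rw [rsmul, om_smul_right, ofReal_re, ofReal_im, zero_mul, add_zero]

theorem ip_rsmul_left (r : ℝ) (x y : E) : ip (r • x) y = r * ip x y := by
  rw [rsmul, ip_smul_left, ofReal_re, ofReal_im, zero_mul, add_zero]

theorem ip_rsmul_right (r : ℝ) (x y : E) : ip x (r • y) = r * ip x y := by
  rw [rsmul, ip_smul_right, ofReal_re, ofReal_im, zero_mul, sub_zero]

theorem hasDerivAt_om {f g : ℝ → E} {f' g' : E} {t : ℝ} (hf : HasDerivAt f f' t)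
    (hg : HasDerivAt g g' t) :
    HasDerivAt (fun s => om (f s) (g s)) (om f' (g t) + om (f t) g') t := by
  have h := imCLM.hasFDerivAt.comp_hasDerivAt t (hf.inner ℂ hg)
  rw [add_comm]
  exact h

/-- the real inner product with `x`, as a continuous linear functional -/
noncomputable def ipL (x : E) : E →L[ℝ] ℝ := reCLM.comp ((innerSL ℂ x).restrictScalars ℝ)

theorem ipL_apply (x y : E) : ipL x y = ip x y := rfl

theorem hasFDerivAt_norm_sq (x : E) : HasFDerivAt (fun y : E => ‖y‖ ^ 2) ((2 : ℝ) • ipL x) x := by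
  have h := reCLM.hasFDerivAt.comp x ((hasFDerivAt_id x).inner ℂ (hasFDerivAt_id x))
  have e : (fun y : E => ‖y‖ ^ 2) = fun y => ip y y := funext fun y => (ip_self y).symm
  rw [e]
  refine HasFDerivAt.congr_fderiv h (ContinuousLinearMap.ext fun v => ?_)
  change (⟪x, v⟫_ℂ + ⟪v, x⟫_ℂ).re = 2 * ip x v
  rw [add_re, two_mul]
  exact congrArg _ (ip_comm v x)

/-! ## the Hamiltonian side -/

/-- a symplectic embedding of the open ball of radius `ρ` into `O` -/
structure Emb (O : Set E) (ψ : E → E) (ρ : ℝ) : Prop where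
  pos : 0 < ρ
  smooth : ContDiffOn ℝ 2 ψ (ball 0 ρ)
  inj : InjOn ψ (ball 0 ρ)
  maps : MapsTo ψ (ball 0 ρ) O
  symp : ∀ y ∈ ball (0 : E) ρ, ∀ u v, om (fderiv ℝ ψ y u) (fderiv ℝ ψ y v) = om u v

/-- through every point of `O` there is a Hamiltonian curve of `h` in `O`, and it closes up in time
at most one only at critical points -/
def Orb (O : Set E) (h : E → ℝ) : Prop :=
  ∀ z0 ∈ O, ∃ z z' : ℝ → E, z 0 = z0 ∧ Continuous z' ∧
    (∀ t, HasDerivAt z (z' t) t ∧ z t ∈ O ∧ ∀ u, om (z' t) u = -fderiv ℝ h (z t) u) ∧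
    ∀ t ∈ Set.Ioc (0 : ℝ) 1, z t = z0 → fderiv ℝ h z0 = 0

/-- a slow bump in `O` with value `c` at its centre `p` -/
structure One (O : Set E) (c : ℝ) (k : E → ℝ) (p : E) : Prop where
  smooth : ContDiff ℝ 2 k
  supp : ∃ K, IsCompact K ∧ K ⊆ O ∧ ∀ z ∉ K, k z = 0
  mem : p ∈ O
  val : k p = c
  crit0 : fderiv ℝ k p = 0
  crit : ∀ z, fderiv ℝ k z = 0 → k z = 0 ∨ z = p
  orb : Orb O k

/-- a slow Hamiltonian in the ball of radius `ρ` with critical values `-a`, `0`, `b` -/
structure Slow (ρ a b : ℝ) (h : E → ℝ) (p q : E) : Prop where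
  smooth : ContDiff ℝ 2 h
  supp : ∃ ρ' < ρ, ∀ z, ρ' < ‖z‖ → h z = 0
  hp : ‖p‖ < ρ ∧ h p = -a ∧ fderiv ℝ h p = 0
  hq : ‖q‖ < ρ ∧ h q = b ∧ fderiv ℝ h q = 0
  crit : ∀ z, fderiv ℝ h z = 0 → h z = 0 ∨ z = p ∨ z = q
  orb : Orb (ball 0 ρ) h

/-- the space of the lift -/
abbrev Lf (E : Type*) := WithLp 2 (ℂ × E)

/-- the section of the cone over the ball -/
noncomputable def io (ρ : ℝ) (z : E) : Lf E := WithLp.toLp 2 (((√(ρ ^ 2 - ‖z‖ ^ 2) : ℝ) : ℂ), z)

/-- the derivative of `io` -/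
noncomputable def dio (ρ : ℝ) (z u : E) : Lf E :=
  WithLp.toLp 2 (((-ip z u / √(ρ ^ 2 - ‖z‖ ^ 2) : ℝ) : ℂ), u)

/-- `Y` is the Hamiltonian vector field of the conical function `H` -/
structure IsVF (H : E → ℝ) (Y : E → E) (K : NNReal) : Prop where
  lip : LipschitzWith K Y
  hom : ∀ (c : ℂ) x, Y (c • x) = c • Y x
  diff : Differentiable ℝ H
  ham : ∀ x v, om (Y x) v = -fderiv ℝ H x v
  sym : ∀ x y, |om (Y x) y + om x (Y y)| ≤ K * ‖x - y‖ ^ 2

/-- a conical vector field with controlled closed orbits -/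
structure Dyn (E : Type*) [NormedAddCommGroup E] [InnerProductSpace ℂ E] [NormedSpace ℝ E]
    (a b : ℝ) where
  Y : E → E
  K : NNReal
  p : E
  q : E
  lip : LipschitzWith K Y
  hom : ∀ (c : ℂ) x, Y (c • x) = c • Y x
  sym : ∀ x y, |om (Y x) y + om x (Y y)| ≤ K * ‖x - y‖ ^ 2
  p0 : p ≠ 0
  q0 : q ≠ 0
  Yp : Y p = (((-(2 * π * a) : ℝ) : ℂ) * I) • p
  Yq : Y q = (((2 * π * b : ℝ) : ℂ) * I) • q
  orb : ∀ x, ∃ W : ℝ → E, W 0 = x ∧ (∀ t, HasDerivAt W (Y (W t)) t) ∧
    ∀ t ∈ Set.Ioc (0 : ℝ) 1, ∀ c : ℂ, W t = c • x →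
      Y x = 0 ∨ (∃ d : ℂ, x = d • p) ∨ ∃ d : ℂ, x = d • q

end basic

/-- a conical flow with controlled closed orbits -/
structure Flow (E : Type*) [NormedAddCommGroup E] [InnerProductSpace ℂ E] (a b : ℝ) where
  σ : ℝ → E → E
  C : ℝ
  p : E
  q : E
  C0 : 0 < C
  lip : ∀ τ ∈ Set.Icc (0 : ℝ) 1, ∀ x y, ‖σ τ x - σ τ y - (x - y)‖ ≤ C * τ * ‖x - y‖
  sym : ∀ τ ∈ Set.Icc (0 : ℝ) 1, ∀ x y, |om (σ τ x) (σ τ y) - om x y| ≤ C * τ * ‖x - y‖ ^ 2
  hom : ∀ τ (c : ℂ) x, σ τ (c • x) = c • σ τ x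
  cont : ∀ τ ∈ Set.Icc (0 : ℝ) 1, ∀ τ' ∈ Set.Icc (0 : ℝ) 1, ∀ x,
    ‖σ τ x - σ τ' x‖ ≤ C * |τ - τ'| * ‖x‖
  zero : ∀ x, σ 0 x = x
  add : ∀ s t x, σ (s + t) x = σ s (σ t x)
  p0 : p ≠ 0
  q0 : q ≠ 0
  hp : ∀ τ, σ τ p = exp (((-(2 * π * a * τ) : ℝ) : ℂ) * I) • p
  hq : ∀ τ, σ τ q = exp (((2 * π * b * τ : ℝ) : ℂ) * I) • q
  fix : ∀ t ∈ Set.Ioc (0 : ℝ) 1, ∀ x (c : ℂ), σ t x = c • x →
    σ t x = x ∨ (∃ d : ℂ, x = d • p) ∨ ∃ d : ℂ, x = d • q

end Vale.Agent.P209N
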