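import Vale.Agent.P209N.DegLoc

/-! P209 necessity, file DegOdd (helper lemma names end in `_DegOdd`).

PLAN. `deg_count`: induction on `Z` generalizing `Ω`. Empty: `Degree.exists_zero`. Insert `x0`: take `r` from
`deg_local` with `closedBall x0 r ⊆ Ω`; `D.add` with `Ω₁ = ball x0 r`, `Ω₂ = Ω \ closedBall x0 r`
(`closure Ω₂ ⊆ closure Ω \ ball x0 r`). `deg_odd_ne_zero`: the zeros in `closedBall 0 1` form a compact set all of
whose points are isolated (`deg_local`), so it is finite (`IsCompact.finite` with `isDiscrete`, or a finite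
subcover by the balls); `0` is a zero, and `x ↦ -x` is a fixed point free involution of the other zeros, so
the number of zeros is odd (`Finset.sum_involution` in `ZMod 2`, or `Finset.card_eq_of_equiv`). -/

namespace Vale.Agent.P209N

open Metric Set

variable {E : Type*} [NormedAddCommGroup E] [NormedSpace ℝ E] [FiniteDimensional ℝ E]

theorem deg_count (D : P173.Degree E) {c : ℝ}
    (hc : ∀ A : E →L[ℝ] E, A.det ≠ 0 → D.deg (ball 0 1) A = c ∨ D.deg (ball 0 1) A = -c)
    {g : E → E} (hg : ContDiff ℝ 1 g) (Z : Finset E) {Ω : Set E} (ho : IsOpen Ω)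
    (hb : Bornology.IsBounded Ω) (hZ : ∀ x ∈ closure Ω, g x = 0 → x ∈ Z)
    (hZ1 : ∀ x ∈ Z, x ∈ Ω ∧ g x = 0 ∧ (fderiv ℝ g x).det ≠ 0) :
    ∃ N : ℤ, D.deg Ω g = N * c ∧ (Even N ↔ Even Z.card) := by
  classical
  induction Z using Finset.induction_on generalizing Ω with
  | empty =>
    refine ⟨0, ?_, by simp⟩
    by_contra hne
    obtain ⟨x, hx, h0⟩ := D.exists_zero ho hb hg.contDiffOn hg.continuous.continuousOn
      (by simpa using hne)
    simpa using hZ x hx h0
  | insert x0 Z hx0 ih =>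
    obtain ⟨hx0Ω, hg0, hd0⟩ := hZ1 x0 (Finset.mem_insert_self _ _)
    obtain ⟨r0, hr0, hloc⟩ := deg_local D hg hg0 hd0
    obtain ⟨ε, hε, hεΩ⟩ := nhds_basis_closedBall.mem_iff.1 (ho.mem_nhds hx0Ω)
    have hr : 0 < min r0 ε := lt_min hr0 hε
    obtain ⟨huniq, hdeg⟩ := hloc (min r0 ε) hr (min_le_left _ _)
    have hsub : closedBall x0 (min r0 ε) ⊆ Ω :=
      (closedBall_subset_closedBall (min_le_right _ _)).trans hεΩ
    have ho2 : IsOpen (Ω \ closedBall x0 (min r0 ε)) := ho.sdiff isClosed_closedBall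
    have hZ2 : ∀ x ∈ Z, x ∈ Ω \ closedBall x0 (min r0 ε) := by
      intro x hx
      have h := hZ1 x (Finset.mem_insert_of_mem hx)
      exact ⟨h.1, fun hb' => hx0 (huniq x hb' h.2.1 ▸ hx)⟩
    obtain ⟨N, hN, hpar⟩ := ih ho2 (hb.subset sdiff_subset) (by
        intro x hx h0
        have h1 := hZ x (closure_mono sdiff_subset hx) h0
        rcases Finset.mem_insert.1 h1 with rfl | h1
        · have : x ∈ (ball x (min r0 ε))ᶜ :=
            closure_minimal (fun y hy hyb => hy.2 (ball_subset_closedBall hyb))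
              isOpen_ball.isClosed_compl hx
          exact (this (mem_ball_self hr)).elim
        · exact h1)
      (fun x hx => ⟨hZ2 x hx, (hZ1 x (Finset.mem_insert_of_mem hx)).2⟩)
    have hadd := D.add Ω (ball x0 (min r0 ε)) (Ω \ closedBall x0 (min r0 ε)) g ho hb isOpen_ball
      ho2 (ball_subset_closedBall.trans hsub) sdiff_subset
      (disjoint_left.2 fun y hy hy2 => hy2.2 (ball_subset_closedBall hy)) hg.contDiffOn
      hg.continuous.continuousOn (by
        intro x hx h0
        rcases Finset.mem_insert.1 (hZ x hx h0) with rfl | h1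
        · exact Or.inl (mem_ball_self hr)
        · exact Or.inr (hZ2 x h1))
    rw [hadd, hdeg, hN, Finset.card_insert_of_notMem hx0, Nat.even_add_one, ← hpar]
    rcases hc _ hd0 with h | h
    · refine ⟨N + 1, by rw [h]; push_cast; ring, Int.even_add_one⟩
    · refine ⟨N - 1, by rw [h]; push_cast; ring, Int.even_sub_one⟩


theorem deg_odd_ne_zero (D : P173.Degree E) {c : ℝ} (hc0 : c ≠ 0)
    (hc : ∀ A : E →L[ℝ] E, A.det ≠ 0 → D.deg (ball 0 1) A = c ∨ D.deg (ball 0 1) A = -c)
    {g : E → E} (hg : ContDiff ℝ 1 g) (ho : ∀ x, g (-x) = -g x) (hs : ∀ x, ‖x‖ = 1 → g x ≠ 0)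
    (hr : ∀ x, g x = 0 → (fderiv ℝ g x).det ≠ 0) : D.deg (ball 0 1) g ≠ 0 := by
  classical
  have hK : IsCompact (closedBall (0 : E) 1 ∩ g ⁻¹' {0}) :=
    (isCompact_closedBall 0 1).inter_right (isClosed_singleton.preimage hg.continuous)
  have hloc : ∀ x, ∃ r : ℝ, 0 < r ∧ (g x = 0 → ∀ y ∈ ball x r, g y = 0 → y = x) := by
    intro x
    by_cases h0 : g x = 0
    · obtain ⟨r0, hr0, h⟩ := deg_local D hg h0 (hr x h0)
      exact ⟨r0, hr0, fun _ y hy => (h r0 hr0 le_rfl).1 y (ball_subset_closedBall hy)⟩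
    · exact ⟨1, one_pos, fun h => (h0 h).elim⟩
  choose r hr0 hru using hloc
  obtain ⟨t, ht, hcov⟩ := hK.elim_nhds_subcover (fun x => ball x (r x))
    fun x _ => ball_mem_nhds x (hr0 x)
  have hfin : (closedBall (0 : E) 1 ∩ g ⁻¹' {0}).Finite := by
    refine t.finite_toSet.subset fun y hy => ?_
    obtain ⟨x, hx, hyx⟩ := mem_iUnion₂.1 (hcov hy)
    rw [hru x (ht x hx).2 y hyx hy.2]
    exact hx
  have hmem : ∀ x, x ∈ hfin.toFinset ↔ ‖x‖ ≤ 1 ∧ g x = 0 := by
    intro x
    simp
  obtain ⟨N, hN, hpar⟩ := deg_count D hc hg hfin.toFinset isOpen_ball isBounded_ball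
    (fun x hx h0 => (hmem x).2
      ⟨mem_closedBall_zero_iff.1 (closure_ball_subset_closedBall hx), h0⟩)
    (fun x hx => by
      obtain ⟨h1, h0⟩ := (hmem x).1 hx
      exact ⟨mem_ball_zero_iff.2 (lt_of_le_of_ne h1 fun h => hs x h h0), h0, hr x h0⟩)
  have hg0 : g 0 = 0 := by
    have h := ho 0
    rw [neg_zero] at h
    have h2 : (2 : ℝ) • g 0 = 0 := by
      rw [two_smul]
      nth_rewrite 1 [h]
      exact neg_add_cancel _
    exact (smul_eq_zero.1 h2).resolve_left two_ne_zero
  have h0m : (0 : E) ∈ hfin.toFinset := (hmem 0).2 ⟨by simp, hg0⟩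
  have hev : Even (hfin.toFinset.erase 0).card := by
    have hsum : ∑ _x ∈ hfin.toFinset.erase 0, (1 : ZMod 2) = 0 := by
      refine Finset.sum_involution (fun x _ => -x) (fun _ _ => by decide) ?_ ?_
        (fun x _ => neg_neg x)
      · intro x hx _ h
        apply (Finset.mem_erase.1 hx).1
        have h2 : (2 : ℝ) • x = 0 := by
          rw [two_smul]
          nth_rewrite 1 [← h]
          exact neg_add_cancel _
        exact (smul_eq_zero.1 h2).resolve_left two_ne_zero
      · intro x hx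
        obtain ⟨h1, h2⟩ := Finset.mem_erase.1 hx
        obtain ⟨h3, h4⟩ := (hmem x).1 h2
        exact Finset.mem_erase.2 ⟨neg_ne_zero.2 h1,
          (hmem _).2 ⟨by rwa [norm_neg], by rw [ho, h4, neg_zero]⟩⟩
    rw [Finset.sum_const, nsmul_eq_mul, mul_one] at hsum
    exact ZMod.natCast_eq_zero_iff_even.1 hsum
  rw [← Finset.card_erase_add_one h0m, Nat.even_add_one] at hpar
  rw [hN]
  refine mul_ne_zero ?_ hc0
  intro h
  have : N = 0 := by exact_mod_cast h
  exact hpar.1 (by simp [this]) hev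


end Vale.Agent.P209N
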