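import Mathlib

/-! P209 necessity, file HomLip (helper lemma names end in `_HomLip`).

PLAN. `lipschitz_of_hom`: `Y` is locally Lipschitz on the compact unit sphere (`ContDiffAt.exists_lipschitzOnWith`,
`LocallyLipschitzOn.exists_lipschitzOnWith_of_compact`), so `K`-Lipschitz and bounded by `M` there. For
`a, b ≠ 0` with unit vectors `a1, b1`: `Y a - Y b = (‖a‖ - ‖b‖) • Y a1 + ‖b‖ • (Y a1 - Y b1)` and
`‖b‖ * ‖a1 - b1‖ ≤ 2 * ‖a - b‖`; `Y 0 = 0`. `abs_sub_le_of_lipschitz`: mean value inequality on the segment or on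
`closedBall x ‖y - x‖` (`Convex.norm_image_sub_le_of_norm_fderiv_le'`). `euler`, `rot_zero`: differentiate
`t ↦ H (t • x) = t ^ 2 * H x` at `1` and `t ↦ H (exp (t I) • x) = H x` at `0` (`HasDerivAt.unique`). -/

namespace Vale.Agent.P209N

open Complex

theorem lipschitz_of_hom {E F : Type*} [NormedAddCommGroup E] [NormedSpace ℝ E]
    [FiniteDimensional ℝ E] [NormedAddCommGroup F] [NormedSpace ℝ F] {Y : E → F}
    (hY : ContDiffOn ℝ 1 Y {0}ᶜ) (hom : ∀ (c : ℝ) x, 0 ≤ c → Y (c • x) = c • Y x) :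
    ∃ K, LipschitzWith K Y := by
  have hc := isCompact_sphere (0 : E) 1
  have hs : ∀ x ∈ Metric.sphere (0 : E) 1, ContDiffAt ℝ 1 Y x := fun x hx =>
    hY.contDiffAt (isOpen_compl_singleton.mem_nhds (by
      rintro rfl
      simp at hx))
  have hl : LocallyLipschitzOn (Metric.sphere (0 : E) 1) Y := fun x hx => by
    obtain ⟨K, t, ht, h⟩ := (hs x hx).exists_lipschitzOnWith
    exact ⟨K, t, mem_nhdsWithin_of_mem_nhds ht, h⟩
  obtain ⟨K, hK⟩ := hl.exists_lipschitzOnWith_of_compact hc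
  obtain ⟨M, hM⟩ := hc.exists_bound_of_continuousOn hK.continuousOn
  have h0 : Y 0 = 0 := by simpa using hom 0 0 le_rfl
  have M0 : (0 : ℝ) ≤ max M 0 := le_max_right _ _
  have dec : ∀ a : E, a ≠ 0 → ∃ u ∈ Metric.sphere (0 : E) 1, a = ‖a‖ • u := fun a ha =>
    ⟨‖a‖⁻¹ • a, by simp [norm_smul, ha], by rw [smul_inv_smul₀ (norm_ne_zero_iff.2 ha)]⟩
  have bd : ∀ a : E, ‖Y a‖ ≤ max M 0 * ‖a‖ := fun a => by
    by_cases ha : a = 0
    · simp [ha, h0]
    obtain ⟨u, hu, e⟩ := dec a ha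
    conv_lhs => rw [e, hom _ _ (norm_nonneg _), norm_smul, norm_norm, mul_comm]
    exact mul_le_mul_of_nonneg_right ((hM u hu).trans (le_max_left _ _)) (norm_nonneg _)
  refine ⟨⟨max M 0 + 2 * K, by positivity⟩, LipschitzWith.of_dist_le_mul fun a b => ?_⟩
  have K0 : (0 : ℝ) ≤ K := K.2
  change dist (Y a) (Y b) ≤ (max M 0 + 2 * K) * dist a b
  rw [dist_eq_norm, dist_eq_norm]
  by_cases ha : a = 0
  · rw [ha, h0, zero_sub, zero_sub, norm_neg, norm_neg]
    nlinarith [bd b, norm_nonneg b]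
  by_cases hb : b = 0
  · rw [hb, h0, sub_zero, sub_zero]
    nlinarith [bd a, norm_nonneg a]
  obtain ⟨u, hu, e⟩ := dec a ha
  obtain ⟨v, hv, e'⟩ := dec b hb
  have u1 : ‖u‖ = 1 := by simpa using hu
  have a1 : Y a - Y b = (‖a‖ - ‖b‖) • Y u + ‖b‖ • (Y u - Y v) := by
    conv_lhs => rw [e, e', hom _ _ (norm_nonneg _), hom _ _ (norm_nonneg _)]
    module
  have a2 : ‖b‖ • (u - v) = a - b - (‖a‖ - ‖b‖) • u := by
    rw [smul_sub, sub_smul, ← e, ← e']
    abel
  have a3 : |‖a‖ - ‖b‖| ≤ ‖a - b‖ := abs_norm_sub_norm_le a b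
  have a4 : ‖b‖ * ‖u - v‖ ≤ 2 * ‖a - b‖ := by
    have h1 := norm_sub_le (a - b) ((‖a‖ - ‖b‖) • u)
    rw [← a2, norm_smul, norm_smul, norm_norm, u1, mul_one, Real.norm_eq_abs] at h1
    linarith
  have a5 := hK.norm_sub_le hu hv
  have a6 := bd u
  rw [u1, mul_one] at a6
  have a7 := norm_add_le ((‖a‖ - ‖b‖) • Y u) (‖b‖ • (Y u - Y v))
  rw [← a1, norm_smul, norm_smul, norm_norm, Real.norm_eq_abs] at a7
  have a8 := mul_le_mul a3 a6 (norm_nonneg _) (norm_nonneg _)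
  have a9 := mul_le_mul_of_nonneg_left a5 (norm_nonneg b)
  have a10 := mul_le_mul_of_nonneg_left a4 K0
  nlinarith

theorem abs_sub_le_of_lipschitz {E : Type*} [NormedAddCommGroup E] [NormedSpace ℝ E] {H : E → ℝ}
    (hd : Differentiable ℝ H) {K : NNReal} (hK : LipschitzWith K (fderiv ℝ H)) (x y : E) :
    |H y - H x - fderiv ℝ H x (y - x)| ≤ K * ‖y - x‖ ^ 2 := by
  have h := (convex_closedBall x ‖y - x‖).norm_image_sub_le_of_norm_fderiv_le' (𝕜 := ℝ) (f := H)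
    (φ := fderiv ℝ H x) (C := K * ‖y - x‖) (fun z _ => hd z) (fun z hz =>
      (hK.norm_sub_le z x).trans (mul_le_mul_of_nonneg_left (mem_closedBall_iff_norm.1 hz) K.2))
    (Metric.mem_closedBall_self (norm_nonneg _)) (mem_closedBall_iff_norm.2 le_rfl)
  rwa [Real.norm_eq_abs, mul_assoc, ← sq] at h

variable {E : Type*} [NormedAddCommGroup E] [NormedSpace ℂ E] [NormedSpace ℝ E]
  [IsScalarTower ℝ ℂ E] {H : E → ℝ}

theorem euler (hd : Differentiable ℝ H) (hom : ∀ (c : ℂ) x, H (c • x) = ‖c‖ ^ 2 * H x) (x : E) :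
    fderiv ℝ H x x = 2 * H x := by
  have h1 : HasDerivAt (fun t : ℝ => H (t • x)) (fderiv ℝ H x x) 1 := by
    have h := ((hasDerivAt_id (1 : ℝ)).smul_const x)
    have h' : HasFDerivAt H (fderiv ℝ H x) (id (1 : ℝ) • x) := by
      simpa using (hd x).hasFDerivAt
    have := h'.comp_hasDerivAt 1 h
    rw [one_smul] at this
    exact this
  have h2 : HasDerivAt (fun t : ℝ => H (t • x)) (2 * H x) 1 := by
    have e : (fun t : ℝ => H (t • x)) = fun t => t ^ 2 * H x := funext fun t => by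
      rw [← algebraMap_smul ℂ t x, hom, norm_algebraMap', Real.norm_eq_abs, sq_abs]
    rw [e]
    simpa using (hasDerivAt_pow 2 (1 : ℝ)).mul_const (H x)
  exact h1.unique h2

theorem rot_zero (hd : Differentiable ℝ H) (hom : ∀ (c : ℂ) x, H (c • x) = ‖c‖ ^ 2 * H x) (x : E) :
    fderiv ℝ H x (I • x) = 0 := by
  have h0 : HasDerivAt (fun t : ℝ => cexp (t * I)) I 0 := by
    have h := (((hasDerivAt_id (0 : ℝ)).ofReal_comp).mul_const I).cexp
    simpa using h
  have h1 : HasDerivAt (fun t : ℝ => H (cexp (t * I) • x)) (fderiv ℝ H x (I • x)) 0 := by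
    have h' : HasFDerivAt H (fderiv ℝ H x) (cexp (((0 : ℝ) : ℂ) * I) • x) := by
      simpa using (hd x).hasFDerivAt
    exact h'.comp_hasDerivAt 0 (h0.smul_const x)
  have e : (fun t : ℝ => H (cexp (t * I) • x)) = fun _ => H x := funext fun t => by
    rw [hom, Complex.norm_exp_ofReal_mul_I, one_pow, one_mul]
  rw [e] at h1
  exact h1.unique (hasDerivAt_const _ _)

end Vale.Agent.P209N
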