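import Vale.Agent.P209N.Defs
import Vale.Agent.P209N.HomLip

/-! P209 necessity, file VF (helper lemma names end in `_VF`).

PLAN. `exists_J`: the real linear map `u ↦ ipL (-I • u)`, that is `v ↦ -om u v`, from `E` to `E →L[ℝ] ℝ` is injective
(`eq_zero_of_om`), the dimensions agree, so it is a linear equivalence
(`LinearMap.linearEquivOfInjective`, `LinearMap.toContinuousLinearMap`). `exists_vf`: `|H x| ≤ M ‖x‖ ^ 2` (compact
sphere), so `HasFDerivAt H 0 0`; `H` is differentiable. Chain rule for `H (c • x) = ‖c‖ ^ 2 * H x`: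
`fderiv H (c • x) (c • v) = ‖c‖ ^ 2 * fderiv H x v`. So `fderiv H` is positively homogeneous, `C¹` off `0`
(`ContDiffOn.fderiv_of_isOpen`), Lipschitz (`lipschitz_of_hom`). `Y x = J (fderiv H x)`; `hom` by `om_smul_smul`,
`eq_zero_of_om`. `sym`: with `euler`, `om (Y x) y + om x (Y y)` equals
`(H y - H x - dH x (y - x)) - (H x - H y - dH y (x - y))`; enlarge `K` (`LipschitzWith.weaken`). -/

namespace Vale.Agent.P209N

open Complex Metric Set Finset Filter Module
open scoped InnerProductSpace Real ComplexConjugate Topology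

variable {E : Type*} [NormedAddCommGroup E] [InnerProductSpace ℂ E] [NormedSpace ℝ E]
  [IsScalarTower ℝ ℂ E] [FiniteDimensional ℝ E]

theorem exists_J : ∃ J : (E →L[ℝ] ℝ) →L[ℝ] E, ∀ φ v, om (J φ) v = -φ v := by
  have e : ∀ u v : E, ipL ((-I) • u) v = -om u v := fun u v => by
    rw [ipL_apply, ip_smul_left]
    simp
  let A : E →ₗ[ℝ] (E →L[ℝ] ℝ) :=
    { toFun := fun u => ipL ((-I) • u)
      map_add' := fun u w => ContinuousLinearMap.ext fun v => by
        rw [add_apply, e, e, e, om_add_left, neg_add]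
      map_smul' := fun r u => ContinuousLinearMap.ext fun v => by
        rw [smul_apply, e, e, om_rsmul_left, RingHom.id_apply, smul_eq_mul, mul_neg] }
  have hA : Function.Injective A := (injective_iff_map_eq_zero A).2 fun u hu =>
    eq_zero_of_om fun v => neg_eq_zero.1 ((e u v).symm.trans (DFunLike.congr_fun hu v))
  have hd : finrank ℝ E = finrank ℝ (E →L[ℝ] ℝ) := by
    rw [← (LinearMap.toContinuousLinearMap (𝕜 := ℝ) (E := E) (F' := ℝ)).finrank_eq]
    exact Subspace.dual_finrank_eq.symm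
  refine ⟨LinearMap.toContinuousLinearMap (A.linearEquivOfInjective hA hd).symm.toLinearMap,
    fun φ v => ?_⟩
  have h1 := DFunLike.congr_fun ((A.linearEquivOfInjective hA hd).apply_symm_apply φ) v
  rw [← h1]
  exact (neg_neg _).symm.trans (congrArg _ (e _ v).symm)

theorem zero_VF {H : E → ℝ} (hH : ContDiffOn ℝ 2 H {0}ᶜ)
    (hom : ∀ (c : ℂ) x, H (c • x) = ‖c‖ ^ 2 * H x) : HasFDerivAt H (0 : E →L[ℝ] ℝ) 0 := by
  have := FiniteDimensional.proper_real E
  have h0 : H 0 = 0 := by simpa using hom 0 0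
  obtain ⟨M, hM⟩ := (isCompact_sphere (0 : E) 1).exists_bound_of_continuousOn
    (hH.continuousOn.mono fun x hx (e : x = 0) => by simp [e] at hx)
  have h1 : ∀ x, ‖H x‖ ≤ M * ‖‖x‖ ^ 2‖ := by
    intro x
    by_cases hx : x = 0
    · simp [hx, h0]
    have h2 : ‖x‖ ≠ 0 := norm_ne_zero_iff.2 hx
    have h3 := hom (‖x‖ : ℝ) (‖x‖⁻¹ • x)
    rw [← rsmul, smul_inv_smul₀ h2, Complex.norm_real, norm_norm] at h3
    rw [h3, norm_mul, mul_comm]
    exact mul_le_mul_of_nonneg_right (hM _ (by simp [norm_smul, h2])) (norm_nonneg _)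
  rw [hasFDerivAt_iff_isLittleO_nhds_zero]
  simpa [h0] using (Asymptotics.IsBigO.of_bound M (Eventually.of_forall h1)).trans_isLittleO
    (Asymptotics.isLittleO_norm_pow_id (E' := E) one_lt_two)

omit [FiniteDimensional ℝ E] in
theorem chain_VF {H : E → ℝ} (hd : Differentiable ℝ H)
    (hom : ∀ (c : ℂ) x, H (c • x) = ‖c‖ ^ 2 * H x) (c : ℂ) (x v : E) :
    fderiv ℝ H (c • x) (c • v) = ‖c‖ ^ 2 * fderiv ℝ H x v := by
  have h1 := (hd (c • x)).hasFDerivAt.comp x ((hasFDerivAt_id x).const_smul c)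
  have h2 := (hd x).hasFDerivAt.const_mul (‖c‖ ^ 2)
  have e : (fun y => ‖c‖ ^ 2 * H y) = H ∘ (c • id) := funext fun y => (hom c y).symm
  rw [e] at h2
  exact DFunLike.congr_fun (h1.unique h2) v

theorem exists_vf {H : E → ℝ} (hH : ContDiffOn ℝ 2 H {0}ᶜ)
    (hom : ∀ (c : ℂ) x, H (c • x) = ‖c‖ ^ 2 * H x) : ∃ Y K, IsVF H Y K := by
  obtain ⟨J, hJ⟩ := exists_J (E := E)
  have h0 := zero_VF hH hom
  have ho : IsOpen ({0}ᶜ : Set E) := isOpen_compl_singleton
  have hd : Differentiable ℝ H := fun x => by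
    by_cases hx : x = 0
    · exact hx ▸ h0.differentiableAt
    · exact (hH.contDiffAt (ho.mem_nhds hx)).differentiableAt (by norm_num)
  have hc := chain_VF hd hom
  obtain ⟨K, hK⟩ := lipschitz_of_hom (Y := fderiv ℝ H) (hH.fderiv_of_isOpen ho (by norm_num))
    fun c x h => by
      rcases h.eq_or_lt with rfl | h
      · rw [zero_smul, zero_smul, h0.fderiv]
      ext v
      have h1 := hc c x v
      rw [← rsmul, ← rsmul, map_smul, Complex.norm_real, Real.norm_of_nonneg h.le, smul_eq_mul,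
        sq, mul_assoc] at h1
      exact mul_left_cancel₀ h.ne' h1
  refine ⟨fun x => J (fderiv ℝ H x), ‖J‖₊ * K + 2 * K,
    (J.lipschitz.comp hK).weaken le_self_add, fun c x => ?_, hd, fun x v => hJ _ _, fun x y => ?_⟩
  · by_cases h : c = 0
    · rw [h, zero_smul, zero_smul, h0.fderiv, map_zero]
    refine sub_eq_zero.1 (eq_zero_of_om fun w => ?_)
    rw [← smul_inv_smul₀ h w, om_sub_left, om_smul_smul, hJ, hJ, hc]
    ring
  · have h1 := abs_sub_le_of_lipschitz hd hK x y
    have h2 := abs_sub_le_of_lipschitz hd hK y x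
    rw [map_sub, euler hd hom] at h1 h2
    rw [norm_sub_rev] at h1
    rw [om_comm x, hJ, hJ]
    have h3 : 0 ≤ ‖J‖ * K * ‖x - y‖ ^ 2 := by positivity
    push_cast
    rw [abs_le] at h1 h2 ⊢
    constructor <;> linarith [h1.1, h1.2, h2.1, h2.2]

end Vale.Agent.P209N
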