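import Vale.Agent.P209N.Lift
import Vale.Agent.P209N.VF

/-! P209 necessity, file DynL (helper lemma names end in `_DynL`).

PLAN. `H` from `exists_lift`, `Y` from `exists_vf`, special points `io ρ p`, `io ρ q` (`norm_io`; `vf_io` with
`z' = 0`, `dio ρ z 0 = 0`). `orb`: if `x.fst = 0` then `Y x = 0` (`hom` with `c = 0`, or `fderiv H x = 0` and
`eq_zero_of_om`), constant curve. Else `x = c • io ρ z0` (`exists_io`); curve `z, z'` from `hS.orb`;
`α t = ∫ s in 0..t, (2 * h (z s) + om (z' s) (z s)) / ρ ^ 2` (`Continuous.deriv_integral`,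
`intervalIntegral.integral_hasDerivAt_right`), `W t = (c * exp (α t * I)) • io ρ (z t)`; derivative by
`HasDerivAt.smul`, `hasFDerivAt_io`, `vf_io`, `hom`. If `W t = c' • x` then `z t = z0` (`io_eq`), so
`fderiv h z0 = 0` and `hS.crit` applies (`h z0 = 0` gives `Y (io ρ z0) = 0` by `vf_io`). -/

namespace Vale.Agent.P209N

open Complex Metric Set Finset Filter Module
open scoped InnerProductSpace Real ComplexConjugate Topology

variable {E : Type*} [NormedAddCommGroup E] [InnerProductSpace ℂ E] [NormedSpace ℝ E]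
  [IsScalarTower ℝ ℂ E] [FiniteDimensional ℝ E]

omit [IsScalarTower ℝ ℂ E] [FiniteDimensional ℝ E] [NormedSpace ℝ E] in
theorem dio_zero_DynL (ρ : ℝ) (z : E) : dio ρ z 0 = 0 := by
  simp only [dio, ip_zero_right, neg_zero, zero_div, ofReal_zero]
  rfl

omit [FiniteDimensional ℝ E] in
theorem vf_crit_DynL {ρ : ℝ} {H : Lf E → ℝ} {Y : Lf E → Lf E} {K : NNReal} (hV : IsVF H Y K)
    (hom : ∀ (c : ℂ) x, H (c • x) = ‖c‖ ^ 2 * H x) {h : E → ℝ}
    (hio : ∀ z, ‖z‖ < ρ → H (io ρ z) = h z) {z : E} (hz : ‖z‖ < ρ) (hc : fderiv ℝ h z = 0) :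
    Y (io ρ z) = (((2 * h z / ρ ^ 2 : ℝ) : ℂ) * I) • io ρ z := by
  have h1 := vf_io hV hom hio hz (z' := 0) fun u => by simp [om_zero_left, hc]
  rwa [dio_zero_DynL, om_zero_left, add_zero, add_zero] at h1

omit [FiniteDimensional ℝ E] in
theorem orb_DynL {ρ : ℝ} {H : Lf E → ℝ} {Y : Lf E → Lf E} {K : NNReal} (hV : IsVF H Y K)
    (hom : ∀ (c : ℂ) x, H (c • x) = ‖c‖ ^ 2 * H x) {h : E → ℝ} (hh : Continuous h)
    (hio : ∀ z, ‖z‖ < ρ → H (io ρ z) = h z) {z z' : ℝ → E} (hz' : Continuous z')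
    (hz : ∀ t, HasDerivAt z (z' t) t ∧ z t ∈ ball (0 : E) ρ ∧
      ∀ u, om (z' t) u = -fderiv ℝ h (z t) u) (c : ℂ) :
    ∃ e : ℝ → ℂ, e 0 = 1 ∧ (∀ t, e t ≠ 0) ∧
      ∀ t, HasDerivAt (fun s => (c * e s) • io ρ (z s)) (Y ((c * e t) • io ρ (z t))) t := by
  have hzc : Continuous z := continuous_iff_continuousAt.2 fun t => (hz t).1.continuousAt
  set f : ℝ → ℝ := fun s => (2 * h (z s) + om (z' s) (z s)) / ρ ^ 2 with hf
  have hfc : Continuous f := by
    have h1 : Continuous fun s => om (z' s) (z s) := continuous_im.comp (hz'.inner hzc)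
    exact ((continuous_const.mul (hh.comp hzc)).add h1).div_const _
  have hα : ∀ t, HasDerivAt (fun u => ∫ s in (0 : ℝ)..u, f s) (f t) t := fun t =>
    (hfc.integral_hasStrictDerivAt 0 t).hasDerivAt
  refine ⟨fun t => exp (((∫ s in (0 : ℝ)..t, f s : ℝ) : ℂ) * I), by simp, fun t => exp_ne_zero _,
    fun t => ?_⟩
  have hzt : ‖z t‖ < ρ := mem_ball_zero_iff.1 (hz t).2.1
  obtain ⟨L, hL, hLu⟩ := hasFDerivAt_io hzt
  have h1 : HasDerivAt (fun s => io ρ (z s)) (dio ρ (z t) (z' t)) t := by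
    rw [← hLu]
    exact hL.comp_hasDerivAt t (hz t).1
  have h2 := ((((hα t).ofReal_comp).mul_const I).cexp).const_mul c
  have h3 := h2.smul h1
  rw [hV.hom, vf_io hV hom hio hzt (hz t).2.2, smul_add, smul_smul, add_comm]
  rw [← mul_assoc] at h3
  exact h3

theorem exists_dyn {ρ a b : ℝ} (hρ : 0 < ρ) {h : E → ℝ} {p q : E} (hS : Slow ρ a b h p q) :
    Nonempty (Dyn (Lf E) (a / (π * ρ ^ 2)) (b / (π * ρ ^ 2))) := by
  obtain ⟨H, hH, hom, hio, hH0⟩ := exists_lift hρ hS.smooth hS.supp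
  obtain ⟨Y, K, hV⟩ := exists_vf hH hom
  have hne : ∀ z : E, ‖z‖ < ρ → io ρ z ≠ 0 := fun z hz h0 => by
    have h1 := norm_io hz
    rw [h0, norm_zero] at h1
    exact hρ.ne h1
  have hπ := Real.pi_pos
  refine ⟨⟨Y, K, io ρ p, io ρ q, hV.lip, hV.hom, hV.sym, hne p hS.hp.1, hne q hS.hq.1, ?_, ?_,
    fun x => ?_⟩⟩
  · have e : -(2 * π * (a / (π * ρ ^ 2))) = 2 * h p / ρ ^ 2 := by
      rw [hS.hp.2.1]
      field_simp
    rw [e]
    exact vf_crit_DynL hV hom hio hS.hp.1 hS.hp.2.2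
  · have e : 2 * π * (b / (π * ρ ^ 2)) = 2 * h q / ρ ^ 2 := by
      rw [hS.hq.2.1]
      field_simp
    rw [e]
    exact vf_crit_DynL hV hom hio hS.hq.1 hS.hq.2.2
  by_cases hx : x.fst = 0
  · have hY : Y x = 0 := by
      by_cases hx0 : x = 0
      · have h1 := hV.hom 0 x
        rw [zero_smul, zero_smul] at h1
        rw [hx0]
        exact h1
      · refine eq_zero_of_om fun v => ?_
        have h1 : H =ᶠ[𝓝 x] fun _ => 0 := hH0 x hx0 hx
        rw [hV.ham, h1.fderiv_eq]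
        simp
    refine ⟨fun _ => x, rfl, fun t => ?_, fun _ _ _ _ => Or.inl hY⟩
    rw [hY]
    exact hasDerivAt_const t x
  obtain ⟨c, z0, hc, hz0, rfl⟩ := exists_io hρ hx
  obtain ⟨z, z', hz00, hz', hz, hcl⟩ := hS.orb z0 (mem_ball_zero_iff.2 hz0)
  obtain ⟨e, he0, he, hW⟩ := orb_DynL hV hom hS.smooth.continuous hio hz' hz c
  refine ⟨fun s => (c * e s) • io ρ (z s), by simp only [he0, hz00, mul_one], hW,
    fun t ht c' hc' => ?_⟩
  simp only [smul_smul] at hc'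
  have h1 := io_eq (mem_ball_zero_iff.1 (hz t).2.1) hz0 (mul_ne_zero hc (he t)) hc'
  have h2 := hcl t ht h1
  rcases hS.crit z0 h2 with h3 | h3 | h3
  · left
    rw [hV.hom, vf_crit_DynL hV hom hio hz0 h2, h3]
    simp
  · exact Or.inr (Or.inl ⟨c, by rw [h3]⟩)
  · exact Or.inr (Or.inr ⟨c, by rw [h3]⟩)

end Vale.Agent.P209N
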