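import Mathlib

/-! P209 necessity, file Eta (helper lemma names end in `_Eta`).

PLAN. Take `|c| < r1 < r2`, `δ = (r1 - |c|) / 2`, `S y = Real.smoothTransition ((r1 - y) / δ)` (values in `[0,1]`,
`1` for `y ≤ r1 - δ`, `0` for `r1 ≤ y`, positive for `y < r1`), `J x = ∫ y in x..r1, S y`, `deriv J = -S`
(`intervalIntegral.integral_hasDerivAt_left`, or `Continuous.deriv_integral` for `-∫ y in r1..x`),
`|c| < r1 - δ ≤ J 0`, `η = c / J 0 * J`. Smoothness: `contDiff_succ_iff_deriv`. -/

namespace Vale.Agent.P209N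

theorem exists_eta {c r2 : ℝ} (hc0 : c ≠ 0) (hc : |c| < r2) :
    ∃ η : ℝ → ℝ, ContDiff ℝ 2 η ∧ η 0 = c ∧ (∃ r1, 0 < r1 ∧ r1 < r2 ∧ ∀ x, r1 ≤ x → η x = 0) ∧
      (∀ x, |deriv η x| < 1) ∧ ∀ x, deriv η x = 0 → η x = 0 := by
  have hc1 : 0 < |c| := abs_pos.2 hc0
  set r1 := (|c| + r2) / 2 with hr1
  set δ := (r1 - |c|) / 2 with hδ
  have hδ0 : 0 < δ := by linarith
  set S : ℝ → ℝ := fun y => Real.smoothTransition ((r1 - y) / δ) with hS
  have hS1 : ContDiff ℝ 1 S :=
    Real.smoothTransition.contDiff.comp ((contDiff_const.sub contDiff_id).div_const δ)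
  have hSc : Continuous S := hS1.continuous
  set J : ℝ → ℝ := fun x => -∫ y in r1..x, S y with hJ
  have hJd : ∀ x, HasDerivAt J (-S x) x := fun x =>
    (hSc.integral_hasStrictDerivAt r1 x).hasDerivAt.neg
  have hJz : ∀ x, r1 ≤ x → J x = 0 := fun x hx => by
    have : ∫ y in r1..x, S y = ∫ _ in r1..x, (0 : ℝ) :=
      intervalIntegral.integral_congr fun y hy => by
        rw [Set.uIcc_of_le hx] at hy
        exact Real.smoothTransition.zero_of_nonpos
          (div_nonpos_of_nonpos_of_nonneg (by linarith [hy.1]) hδ0.le)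
    simp [hJ, this]
  have hJ0 : |c| < J 0 := by
    have e1 : J 0 = (∫ y in (0 : ℝ)..r1 - δ, S y) + ∫ y in (r1 - δ)..r1, S y := by
      rw [intervalIntegral.integral_add_adjacent_intervals (hSc.intervalIntegrable _ _)
        (hSc.intervalIntegrable _ _), intervalIntegral.integral_symm r1 0]
    have e2 : ∫ y in (0 : ℝ)..r1 - δ, S y = ∫ _ in (0 : ℝ)..r1 - δ, (1 : ℝ) :=
      intervalIntegral.integral_congr fun y hy => by
        rw [Set.uIcc_of_le (by linarith)] at hy
        exact Real.smoothTransition.one_of_one_le ((one_le_div hδ0).2 (by linarith [hy.2]))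
    have e3 : 0 ≤ ∫ y in (r1 - δ)..r1, S y :=
      intervalIntegral.integral_nonneg (by linarith) fun y _ => Real.smoothTransition.nonneg _
    rw [e1, e2, intervalIntegral.integral_const, smul_eq_mul]
    linarith
  have hJp : 0 < J 0 := hc1.trans hJ0
  have hd : ∀ x, HasDerivAt (fun x => c / J 0 * J x) (c / J 0 * -S x) x := fun x =>
    (hJd x).const_mul _
  have hd' : deriv (fun x => c / J 0 * J x) = fun x => c / J 0 * -S x :=
    funext fun x => (hd x).deriv
  refine ⟨fun x => c / J 0 * J x, ?_, div_mul_cancel₀ _ hJp.ne',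
    ⟨r1, by linarith, by linarith, fun x hx => by simp only [hJz x hx, mul_zero]⟩, fun x => ?_,
    fun x hx => ?_⟩
  · rw [← one_add_one_eq_two, contDiff_succ_iff_deriv, hd']
    exact ⟨fun x => (hd x).differentiableAt, by simp, contDiff_const.mul hS1.neg⟩
  · rw [hd', abs_mul, abs_neg, abs_div, abs_of_pos hJp,
      abs_of_nonneg (Real.smoothTransition.nonneg _)]
    exact (mul_le_of_le_one_right (by positivity) (Real.smoothTransition.le_one _)).trans_lt
      ((div_lt_one hJp).2 hJ0)
  · rw [hd'] at hx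
    have h1 : S x = 0 := neg_eq_zero.1 ((mul_eq_zero.1 hx).resolve_left (div_ne_zero hc0 hJp.ne'))
    have h2 : r1 ≤ x := by
      by_contra h
      exact (Real.smoothTransition.pos_of_pos (div_pos (by linarith [not_le.1 h]) hδ0)).ne' h1
    simp only [hJz x h2, mul_zero]

end Vale.Agent.P209N
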