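import Vale.Agent.P209N.Defs

/-! P209 necessity, file FlowL: the flow of a conical Lipschitz vector field. -/

namespace Vale.Agent.P209N

open Complex Metric Set Finset Filter Module
open scoped InnerProductSpace Real ComplexConjugate Topology

variable {E : Type*} [NormedAddCommGroup E] [InnerProductSpace ℂ E] [NormedSpace ℝ E]
  [IsScalarTower ℝ ℂ E]

omit [InnerProductSpace ℂ E] [IsScalarTower ℝ ℂ E] in
theorem mv_FlowL {f f' : ℝ → E} {C s t : ℝ} (hf : ∀ t, HasDerivAt f (f' t) t)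
    (hC : ∀ t ∈ Set.Icc (0 : ℝ) 1, ‖f' t‖ ≤ C) (hs : s ∈ Set.Icc (0 : ℝ) 1)
    (ht : t ∈ Set.Icc (0 : ℝ) 1) : ‖f t - f s‖ ≤ C * |t - s| :=
  (convex_Icc (0 : ℝ) 1).norm_image_sub_le_of_norm_hasDerivWithin_le
    (fun x _ => (hf x).hasDerivWithinAt) hC hs ht

theorem rot_FlowL (γ : ℝ) (p : E) (t : ℝ) :
    HasDerivAt (fun τ : ℝ => exp (((γ * τ : ℝ) : ℂ) * I) • p)
      (exp (((γ * t : ℝ) : ℂ) * I) • ((γ : ℂ) * I) • p) t := by
  have h1 : HasDerivAt (fun τ : ℝ => ((γ * τ : ℝ) : ℂ) * I) ((γ : ℂ) * I) t := by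
    have h2 := ((hasDerivAt_id t).const_mul γ).ofReal_comp.mul_const I
    rwa [mul_one] at h2
  rw [smul_smul]
  exact h1.cexp.smul_const p

theorem exists_flow {a b : ℝ} (D : Dyn E a b) : Nonempty (Flow E a b) := by
  choose W W0 Wd Wf using D.orb
  have uq : ∀ V : ℝ → E, (∀ t, HasDerivAt V (D.Y (V t)) t) → ∀ t, W (V 0) t = V t :=
    fun V hV t => congrFun (ODE_solution_unique_univ (v := fun _ => D.Y) (s := fun _ => univ)
      (t₀ := 0) (fun _ => D.lip.lipschitzOnWith) (fun t => ⟨Wd _ t, trivial⟩)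
      (fun t => ⟨hV t, trivial⟩) (W0 _)) t
  have hom : ∀ τ (c : ℂ) x, W (c • x) τ = c • W x τ := fun τ c x => by
    have h := uq (fun t => c • W x t) (fun t => by rw [D.hom]; exact (Wd x t).const_smul c) τ
    rwa [W0] at h
  have K0 : (0 : ℝ) ≤ D.K := D.K.2
  obtain ⟨L, L1, hL⟩ : ∃ L : ℝ, 1 ≤ L ∧ ∀ τ ∈ Set.Icc (0 : ℝ) 1, ∀ x y,
      ‖W x τ - W y τ‖ ≤ L * ‖x - y‖ := by
    refine ⟨Real.exp D.K, Real.one_le_exp K0, fun τ hτ x y => ?_⟩
    have h := dist_le_of_trajectories_ODE (v := fun _ => D.Y) (a := 0) (b := 1)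
      (fun _ => D.lip) (f := W x) (g := W y)
      (fun t _ => (Wd x t).continuousAt.continuousWithinAt) (fun t _ => (Wd x t).hasDerivWithinAt)
      (fun t _ => (Wd y t).continuousAt.continuousWithinAt) (fun t _ => (Wd y t).hasDerivWithinAt)
      le_rfl τ hτ
    rw [W0, W0, dist_eq_norm, dist_eq_norm, sub_zero, mul_comm] at h
    refine h.trans (mul_le_mul_of_nonneg_right (Real.exp_le_exp.2 ?_) (norm_nonneg _))
    exact mul_le_of_le_one_right K0 hτ.2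
  have hY : ∀ τ ∈ Set.Icc (0 : ℝ) 1, ∀ x y,
      ‖D.Y (W x τ) - D.Y (W y τ)‖ ≤ (D.K * L ^ 2 + 1) * ‖x - y‖ := fun τ hτ x y => by
    have h1 := D.lip.dist_le_mul (W x τ) (W y τ)
    rw [dist_eq_norm, dist_eq_norm] at h1
    refine h1.trans ((mul_le_mul_of_nonneg_left (hL τ hτ x y) K0).trans ?_)
    rw [← mul_assoc]
    refine mul_le_mul_of_nonneg_right ?_ (norm_nonneg _)
    nlinarith [mul_nonneg K0 (mul_nonneg (zero_le_one.trans L1) (sub_nonneg.2 L1))]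
  have z0 : (0 : ℝ) ∈ Set.Icc (0 : ℝ) 1 := ⟨le_rfl, zero_le_one⟩
  have rot : ∀ (γ : ℝ) (p : E), D.Y p = ((γ : ℂ) * I) • p → ∀ τ,
      W p τ = exp (((γ * τ : ℝ) : ℂ) * I) • p := fun γ p hp τ => by
    have h := uq _ (fun t => by rw [D.hom, hp]; exact rot_FlowL γ p t) τ
    rwa [mul_zero, ofReal_zero, zero_mul, Complex.exp_zero, one_smul] at h
  refine ⟨⟨fun τ x => W x τ, D.K * L ^ 2 + 1, D.p, D.q, by positivity, fun τ hτ x y => ?_,
    fun τ hτ x y => ?_, hom, fun τ hτ τ' hτ' x => ?_, W0, fun s t x => ?_, D.p0, D.q0,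
    fun τ => ?_, rot _ _ D.Yq, fun t ht x c h => (Wf x t ht c h).imp_left fun h0 => ?_⟩⟩
  · have h := mv_FlowL (fun t => (Wd x t).sub (Wd y t)) (fun t ht => hY t ht x y) z0 hτ
    rw [Pi.sub_apply, Pi.sub_apply, W0, W0, sub_zero, abs_of_nonneg hτ.1] at h
    exact h.trans_eq (mul_right_comm _ _ _)
  · have h := mv_FlowL (C := (D.K * L ^ 2 + 1) * ‖x - y‖ ^ 2)
      (fun t => hasDerivAt_om (Wd x t) (Wd y t)) (fun t ht => by
        refine (D.sym _ _).trans ?_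
        have h1 := pow_le_pow_left₀ (norm_nonneg _) (hL t ht x y) 2
        nlinarith [mul_le_mul_of_nonneg_left h1 K0, sq_nonneg ‖x - y‖]) z0 hτ
    rw [W0, W0, sub_zero, abs_of_nonneg hτ.1] at h
    exact h.trans_eq (mul_right_comm _ _ _)
  · have h := mv_FlowL (C := (D.K * L ^ 2 + 1) * ‖x‖) (Wd x) (fun t ht => by
      have h1 := hY t ht x ((0 : ℂ) • x)
      rwa [hom, D.hom, zero_smul, zero_smul, sub_zero, sub_zero] at h1) hτ' hτ
    exact h.trans_eq (mul_right_comm _ _ _)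
  · have h := uq (fun τ => W x (τ + t)) (fun τ => (Wd x (τ + t)).comp_add_const τ t) s
    rw [zero_add] at h
    exact h.symm
  · rw [← neg_mul]
    exact rot _ _ D.Yp τ
  · exact uq (fun _ => x) (fun t => by rw [h0]; exact hasDerivAt_const t x) t

end Vale.Agent.P209N
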