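import Vale.Agent.P209N.Defs
import Vale.Agent.P209N.HomLip

/-! P209 necessity, file Io (helper lemma names end in `_Io`).

PLAN. `WithLp.prod_norm_sq_eq_of_L2`, `WithLp.prod_inner_apply`, `WithLp.smul_fst`. `exists_io`:
`c = (‖W‖ / (ρ ‖W.fst‖)) * W.fst`, `z = c⁻¹ • W.snd`. `hasFDerivAt_io`: `(WithLp.prodContinuousLinearEquiv 2 ℝ ℂ E).symm`,
`HasFDerivAt.sqrt`, `hasFDerivAt_norm_sq`, `ofRealCLM`. `vf_io`: with `W = io ρ z`, the difference `D` of the two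
sides satisfies `om D W = 0` (`euler`), `om D (I • W) = 0` (`rot_zero`), `om D (dio ρ z u) = 0` (chain rule for
`H ∘ io ρ = h` near `z`); use `ip W (dio ρ z u) = 0`, `om (dio ρ z u) W = om u z`,
`om (dio ρ z u) (dio ρ z v) = om u v`. Every `V` is `α • W + β • I • W + dio ρ z u` with
`α = ip W V / ρ ^ 2`, `β = V.fst.im / w0`, `u = V.snd - α • z - β • I • z`, `w0 = √(ρ ^ 2 - ‖z‖ ^ 2)`;
then `eq_zero_of_om`. -/

namespace Vale.Agent.P209N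

open Complex Metric Set Finset Filter Module
open scoped InnerProductSpace Real ComplexConjugate Topology

variable {E : Type*} [NormedAddCommGroup E] [InnerProductSpace ℂ E] [NormedSpace ℝ E]
  [IsScalarTower ℝ ℂ E] {ρ : ℝ}

omit [NormedSpace ℝ E] [IsScalarTower ℝ ℂ E] in
theorem om_Io (x y : Lf E) :
    om x y = x.fst.re * y.fst.im - x.fst.im * y.fst.re + om x.snd y.snd := by
  simp only [om, WithLp.prod_inner_apply, WithLp.ofLp_fst, WithLp.ofLp_snd, add_im,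
    RCLike.inner_apply, mul_im, conj_re, conj_im]
  ring

omit [NormedSpace ℝ E] [IsScalarTower ℝ ℂ E] in
theorem ip_Io (x y : Lf E) :
    ip x y = x.fst.re * y.fst.re + x.fst.im * y.fst.im + ip x.snd y.snd := by
  simp only [ip, WithLp.prod_inner_apply, WithLp.ofLp_fst, WithLp.ofLp_snd, add_re,
    RCLike.inner_apply, mul_re, conj_re, conj_im]
  ring

omit [InnerProductSpace ℂ E] [NormedSpace ℝ E] [IsScalarTower ℝ ℂ E] in
theorem ext_Io {x y : Lf E} (h1 : x.fst = y.fst) (h2 : x.snd = y.snd) : x = y :=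
  WithLp.ofLp_injective 2 (Prod.ext h1 h2)

omit [InnerProductSpace ℂ E] [NormedSpace ℝ E] [IsScalarTower ℝ ℂ E] in
theorem pos_Io {z : E} (hz : ‖z‖ < ρ) : 0 < ρ ^ 2 - ‖z‖ ^ 2 :=
  sub_pos.2 (pow_lt_pow_left₀ hz (norm_nonneg z) two_ne_zero)

omit [NormedSpace ℝ E] [IsScalarTower ℝ ℂ E] in
theorem zero_Io {z : E} (hz : ‖z‖ < ρ) {D : Lf E} (h1 : om D (io ρ z) = 0)
    (h2 : ip D (io ρ z) = 0) (h3 : ∀ u, om D (dio ρ z u) = 0) : D = 0 := by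
  have hp := pos_Io hz
  have hw : 0 < √(ρ ^ 2 - ‖z‖ ^ 2) := Real.sqrt_pos.2 hp
  have hw2 := Real.sq_sqrt hp.le
  have hρ : 0 < ρ := (norm_nonneg z).trans_lt hz
  simp only [om_Io, ip_Io, io, dio, WithLp.toLp_fst, WithLp.toLp_snd, ofReal_re, ofReal_im,
    mul_zero, zero_sub, add_zero] at h1 h2 h3
  set w := √(ρ ^ 2 - ‖z‖ ^ 2)
  obtain ⟨t, ht⟩ : ∃ t, D.fst.im = t * w := ⟨D.fst.im / w, by field_simp⟩
  have h4 : ∀ u, om D.snd u = -(t * ip z u) := fun u => by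
    have := h3 u
    rw [ht] at this
    field_simp at this
    linarith
  have h5 : t = 0 := by
    rw [h4, ip_self, ht] at h1
    have : t * ρ ^ 2 = 0 := by linear_combination -h1 - t * hw2
    exact (mul_eq_zero.1 this).resolve_right (pow_ne_zero 2 hρ.ne')
  have h6 : D.snd = 0 := eq_zero_of_om fun u => by rw [h4, h5, zero_mul, neg_zero]
  rw [h6, ip_zero_left, add_zero] at h2
  refine ext_Io (Complex.ext ?_ ?_) h6
  · exact (mul_eq_zero.1 h2).resolve_right hw.ne'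
  · rw [ht, h5, zero_mul]
    rfl

theorem norm_io {z : E} (hz : ‖z‖ < ρ) : ‖io ρ z‖ = ρ := by
  have hρ : 0 < ρ := (norm_nonneg z).trans_lt hz
  refine (pow_left_inj₀ (norm_nonneg _) hρ.le two_ne_zero).1 ?_
  rw [WithLp.prod_norm_sq_eq_of_L2]
  simp only [io, WithLp.toLp_fst, WithLp.toLp_snd, norm_real, Real.norm_eq_abs, sq_abs]
  rw [Real.sq_sqrt (pos_Io hz).le]
  ring

theorem io_eq {z z' : E} (hz : ‖z‖ < ρ) (hz' : ‖z'‖ < ρ) {c c' : ℂ} (hc : c ≠ 0)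
    (h : c • io ρ z = c' • io ρ z') : z = z' := by
  have hρ : 0 < ρ := (norm_nonneg z).trans_lt hz
  have h1 := congrArg norm h
  rw [norm_smul, norm_smul, norm_io hz, norm_io hz'] at h1
  have h2 : ‖c‖ = ‖c'‖ := mul_right_cancel₀ hρ.ne' h1
  have h3 : c * ((√(ρ ^ 2 - ‖z‖ ^ 2) : ℝ) : ℂ) = c' * ((√(ρ ^ 2 - ‖z'‖ ^ 2) : ℝ) : ℂ) :=
    congrArg WithLp.fst h
  have h4 : c • z = c' • z' := congrArg WithLp.snd h
  have h5 := congrArg norm h3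
  rw [norm_mul, norm_mul, ← h2, norm_real, norm_real, Real.norm_of_nonneg (Real.sqrt_nonneg _),
    Real.norm_of_nonneg (Real.sqrt_nonneg _)] at h5
  rw [← mul_left_cancel₀ (norm_ne_zero_iff.2 hc) h5] at h3
  have h6 := mul_right_cancel₀ (ofReal_ne_zero.2 (Real.sqrt_pos.2 (pos_Io hz)).ne') h3
  rw [← h6] at h4
  exact smul_right_injective E hc h4

theorem exists_io (hρ : 0 < ρ) {W : Lf E} (hW : W.fst ≠ 0) :
    ∃ (c : ℂ) (z : E), c ≠ 0 ∧ ‖z‖ < ρ ∧ W = c • io ρ z := by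
  have h1 : 0 < ‖W.fst‖ := norm_pos_iff.2 hW
  have h2 : 0 < ‖W‖ := h1.trans_le (WithLp.norm_fst_le _ W)
  have h3 := WithLp.prod_norm_sq_eq_of_L2 W
  have hc : ‖((‖W‖ / (ρ * ‖W.fst‖) : ℝ) : ℂ) * W.fst‖ = ‖W‖ / ρ := by
    rw [norm_mul, norm_real, Real.norm_of_nonneg (by positivity)]
    field_simp
  have hc0 : ((‖W‖ / (ρ * ‖W.fst‖) : ℝ) : ℂ) * W.fst ≠ 0 := by
    rw [← norm_pos_iff, hc]
    positivity
  have hn : ‖(((‖W‖ / (ρ * ‖W.fst‖) : ℝ) : ℂ) * W.fst)⁻¹ • W.snd‖ = ρ * ‖W.snd‖ / ‖W‖ := by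
    rw [norm_smul, norm_inv, hc]
    field_simp
  have hs : ρ ^ 2 - (ρ * ‖W.snd‖ / ‖W‖) ^ 2 = (ρ * ‖W.fst‖ / ‖W‖) ^ 2 := by
    field_simp
    linarith
  refine ⟨_, (((‖W‖ / (ρ * ‖W.fst‖) : ℝ) : ℂ) * W.fst)⁻¹ • W.snd, hc0, ?_, ext_Io ?_ ?_⟩
  · rw [hn]
    refine lt_of_pow_lt_pow_left₀ 2 hρ.le (sub_pos.1 ?_)
    rw [hs]
    positivity
  · simp only [io, WithLp.smul_fst, WithLp.toLp_fst]
    rw [hn, hs, Real.sqrt_sq (by positivity), smul_eq_mul, mul_right_comm, ← ofReal_mul]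
    have : ‖W‖ / (ρ * ‖W.fst‖) * (ρ * ‖W.fst‖ / ‖W‖) = 1 := by field_simp
    rw [this, ofReal_one, one_mul]
  · simp only [io, WithLp.smul_snd, WithLp.toLp_snd]
    rw [smul_inv_smul₀ hc0]

theorem hasFDerivAt_io {z : E} (hz : ‖z‖ < ρ) :
    ∃ L : E →L[ℝ] Lf E, HasFDerivAt (io ρ) L z ∧ ∀ u, L u = dio ρ z u := by
  have hp := pos_Io hz
  have h1 := (((hasFDerivAt_norm_sq z).const_sub (ρ ^ 2)).sqrt hp.ne')
  have h2 := (ofRealCLM.hasFDerivAt.comp z h1).prodMk (hasFDerivAt_id z)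
  have h3 := (WithLp.prodContinuousLinearEquiv 2 ℝ ℂ E).symm.hasFDerivAt.comp z h2
  refine ⟨_, h3, fun u => ext_Io ?_ rfl⟩
  have hw : √(ρ ^ 2 - ‖z‖ ^ 2) ≠ 0 := (Real.sqrt_pos.2 hp).ne'
  change (((1 / (2 * √(ρ ^ 2 - ‖z‖ ^ 2))) * -(2 * ip z u) : ℝ) : ℂ) =
    ((-ip z u / √(ρ ^ 2 - ‖z‖ ^ 2) : ℝ) : ℂ)
  congr 1
  field_simp

theorem vf_io {H : Lf E → ℝ} {Y : Lf E → Lf E} {K : NNReal} (hV : IsVF H Y K)
    (hom : ∀ (c : ℂ) x, H (c • x) = ‖c‖ ^ 2 * H x) {h : E → ℝ}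
    (hio : ∀ z, ‖z‖ < ρ → H (io ρ z) = h z) {z z' : E} (hz : ‖z‖ < ρ)
    (hz' : ∀ u, om z' u = -fderiv ℝ h z u) :
    Y (io ρ z) = ((((2 * h z + om z' z) / ρ ^ 2 : ℝ) : ℂ) * I) • io ρ z + dio ρ z z' := by
  have hρ : 0 < ρ := (norm_nonneg z).trans_lt hz
  have hw : √(ρ ^ 2 - ‖z‖ ^ 2) ≠ 0 := (Real.sqrt_pos.2 (pos_Io hz)).ne'
  have e1 : ∀ u, ip (io ρ z) (dio ρ z u) = 0 := fun u => by
    simp only [ip_Io, io, dio, WithLp.toLp_fst, WithLp.toLp_snd, ofReal_re, ofReal_im]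
    field_simp
    ring
  have e2 : ∀ u, om (dio ρ z u) (io ρ z) = om u z := fun u => by
    simp only [om_Io, io, dio, WithLp.toLp_fst, WithLp.toLp_snd, ofReal_re, ofReal_im]
    ring
  have e3 : ∀ u v, om (dio ρ z u) (dio ρ z v) = om u v := fun u v => by
    simp only [om_Io, dio, WithLp.toLp_fst, WithLp.toLp_snd, ofReal_re, ofReal_im]
    ring
  have e4 : ∀ u, fderiv ℝ H (io ρ z) (dio ρ z u) = fderiv ℝ h z u := fun u => by
    obtain ⟨L, hL, hL'⟩ := hasFDerivAt_io hz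
    have h1 := (hV.diff (io ρ z)).hasFDerivAt.comp z hL
    have h2 : h =ᶠ[𝓝 z] H ∘ io ρ := by
      filter_upwards [(isOpen_lt continuous_norm continuous_const).mem_nhds hz] with y hy
      exact (hio y hy).symm
    rw [(h1.congr_of_eventuallyEq h2).fderiv, ContinuousLinearMap.comp_apply, hL']
  have e5 : (((((2 * h z + om z' z) / ρ ^ 2 : ℝ) : ℂ) * I)).re = 0 := by
    rw [mul_I_re, ofReal_im, neg_zero]
  have e6 : (((((2 * h z + om z' z) / ρ ^ 2 : ℝ) : ℂ) * I)).im = (2 * h z + om z' z) / ρ ^ 2 := by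
    rw [mul_I_im, ofReal_re]
  refine sub_eq_zero.1 (zero_Io hz ?_ ?_ fun u => ?_)
  · rw [om_sub_left, om_add_left, om_smul_left, e5, e6, e2, ip_self, norm_io hz, hV.ham,
      euler hV.diff hom, hio z hz]
    field_simp
    ring
  · have h1 := hV.ham (io ρ z) (I • io ρ z)
    rw [rot_zero hV.diff hom, om_smul_right, I_re, I_im, zero_mul, zero_add, one_mul,
      neg_zero] at h1
    rw [ip_sub_left, ip_add_left, ip_smul_left, e5, om_self, h1, ip_comm (dio ρ z z'), e1]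
    ring
  · rw [om_sub_left, om_add_left, om_smul_left, e5, e1, e3, hV.ham, e4, hz' u]
    ring

end Vale.Agent.P209N
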