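import Vale.Agent.P209N.Io

/-! P209 necessity, file Lift (helper lemma names end in `_Lift`).

PLAN. `H W = if W.fst = 0 then 0 else ‖W‖ ^ 2 / ρ ^ 2 * h (Z W)` with
`Z W = (((ρ / (‖W.fst‖ * ‖W‖) : ℝ) : ℂ) * conj W.fst) • W.snd`; `Z (c • W) = Z W` for `c ≠ 0`, `Z (io ρ z) = z`
(`norm_io`), `‖Z W‖ = ρ * ‖W.snd‖ / ‖W‖`. Near `W ≠ 0` with `W.fst = 0` the continuous function
`ρ * ‖V.snd‖ / ‖V‖` is larger than `ρ'`, so `H = 0` there. Where `W.fst ≠ 0`, `H` is locally the formula, which is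
`ContDiffAt` (`ContDiffAt.norm ℂ`, `WithLp.fstL`, `WithLp.sndL`, `conjCLE`, `ofRealCLM`, `ContDiffAt.smul` or the
bounded bilinear map `ContinuousLinearMap.lsmul ℝ ℂ`). -/

namespace Vale.Agent.P209N

open Complex Metric Set Finset Filter Module
open scoped InnerProductSpace Real ComplexConjugate Topology

variable {E : Type*} [NormedAddCommGroup E] [InnerProductSpace ℂ E] [NormedSpace ℝ E]
  [IsScalarTower ℝ ℂ E]

/-- the projection of the cone to the ball -/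
noncomputable def Z_Lift (ρ : ℝ) (W : Lf E) : E :=
  (((ρ / (‖W.fst‖ * ‖W‖) : ℝ) : ℂ) * conj W.fst) • W.snd

omit [NormedSpace ℝ E] [IsScalarTower ℝ ℂ E] in
theorem smul_Lift (ρ : ℝ) {c : ℂ} (hc : c ≠ 0) (W : Lf E) : Z_Lift ρ (c • W) = Z_Lift ρ W := by
  have h1 : ((‖c‖ : ℝ) : ℂ) ≠ 0 := by simpa using hc
  have h2 : conj c = (‖c‖ : ℂ) ^ 2 / c := by rw [← conj_mul', mul_div_cancel_right₀ _ hc]
  simp only [Z_Lift, WithLp.smul_fst, WithLp.smul_snd, norm_smul, smul_smul, smul_eq_mul, map_mul,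
    norm_mul, h2]
  congr 1
  push_cast
  rw [div_eq_mul_inv, div_eq_mul_inv, div_eq_mul_inv, mul_inv, mul_inv, mul_inv, mul_inv]
  generalize ((‖W.fst‖ : ℝ) : ℂ)⁻¹ = a
  generalize ((‖W‖ : ℝ) : ℂ)⁻¹ = b
  field_simp

omit [NormedSpace ℝ E] [IsScalarTower ℝ ℂ E] in
theorem norm_Lift {ρ : ℝ} (hρ : 0 < ρ) {W : Lf E} (hW : W.fst ≠ 0) :
    ‖Z_Lift ρ W‖ = ρ * ‖W.snd‖ / ‖W‖ := by
  have h1 : ‖W.fst‖ ≠ 0 := norm_ne_zero_iff.2 hW
  rw [Z_Lift, norm_smul, norm_mul, norm_real, norm_conj, Real.norm_of_nonneg (by positivity),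
    div_mul_eq_div_div_swap, div_mul_cancel₀ _ h1, div_mul_eq_mul_div]

theorem io_Lift {ρ : ℝ} {z : E} (hz : ‖z‖ < ρ) : (io ρ z).fst ≠ 0 ∧ Z_Lift ρ (io ρ z) = z := by
  have h0 := norm_nonneg z
  have h1 : 0 < √(ρ ^ 2 - ‖z‖ ^ 2) := Real.sqrt_pos.2 (by nlinarith)
  have h2 : ρ ≠ 0 := (h0.trans_lt hz).ne'
  refine ⟨ofReal_ne_zero.2 h1.ne', ?_⟩
  rw [Z_Lift, norm_io hz]
  change (((ρ / (‖((√(ρ ^ 2 - ‖z‖ ^ 2) : ℝ) : ℂ)‖ * ρ) : ℝ) : ℂ) *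
    conj ((√(ρ ^ 2 - ‖z‖ ^ 2) : ℝ) : ℂ)) • z = z
  rw [norm_real, Real.norm_of_nonneg h1.le, conj_ofReal, ← ofReal_mul,
    div_mul_cancel_right₀ h2, inv_mul_cancel₀ h1.ne', ofReal_one, one_smul]

theorem smooth_Lift (ρ : ℝ) {W : Lf E} (hW : W.fst ≠ 0) : ContDiffAt ℝ 2 (Z_Lift ρ) W := by
  have h0 : W ≠ 0 := fun h => hW (by rw [h]; rfl)
  have h1 : ContDiffAt ℝ 2 (fun V : Lf E => V.fst) W := (WithLp.fstL 2 ℝ ℂ E).contDiff.contDiffAt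
  have h2 : ContDiffAt ℝ 2 (fun V : Lf E => V.snd) W := (WithLp.sndL 2 ℝ ℂ E).contDiff.contDiffAt
  have h3 : ContDiffAt ℝ 2 (fun V : Lf E => ρ / (‖V.fst‖ * ‖V‖)) W :=
    contDiffAt_const.div ((h1.norm ℂ hW).mul (contDiffAt_norm ℂ h0))
      (mul_ne_zero (norm_ne_zero_iff.2 hW) (norm_ne_zero_iff.2 h0))
  exact ((ofRealCLM.contDiff.contDiffAt.comp W h3).mul
    (conjCLE.contDiff.contDiffAt.comp W h1)).smul h2

theorem exists_lift {ρ : ℝ} (hρ : 0 < ρ) {h : E → ℝ} (hh : ContDiff ℝ 2 h)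
    (hs : ∃ ρ' < ρ, ∀ z, ρ' < ‖z‖ → h z = 0) :
    ∃ H : Lf E → ℝ, ContDiffOn ℝ 2 H {0}ᶜ ∧ (∀ (c : ℂ) W, H (c • W) = ‖c‖ ^ 2 * H W) ∧
      (∀ z, ‖z‖ < ρ → H (io ρ z) = h z) ∧ ∀ W, W ≠ 0 → W.fst = 0 → ∀ᶠ V in 𝓝 W, H V = 0 := by
  classical
  obtain ⟨ρ', hρ', hs⟩ := hs
  have hf : Continuous fun V : Lf E => V.fst := (WithLp.fstL 2 ℝ ℂ E).continuous
  have hz : ∀ W : Lf E, W ≠ 0 → W.fst = 0 → ∀ᶠ V in 𝓝 W,
      (if V.fst = 0 then 0 else ‖V‖ ^ 2 / ρ ^ 2 * h (Z_Lift ρ V)) = 0 := fun W h0 h1 => by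
    have h2 : ‖W‖ ≠ 0 := norm_ne_zero_iff.2 h0
    have h3 : ContinuousAt (fun V : Lf E => ρ * ‖V.snd‖ / ‖V‖) W :=
      (continuousAt_const.mul (WithLp.sndL 2 ℝ ℂ E).continuous.norm.continuousAt).div
        continuous_norm.continuousAt h2
    have h4 : ‖W.snd‖ = ‖W‖ := by
      rw [← sq_eq_sq₀ (norm_nonneg _) (norm_nonneg _), WithLp.prod_norm_sq_eq_of_L2, h1, norm_zero]
      ring
    filter_upwards [h3.eventually (lt_mem_nhds (a := ρ') (by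
      simpa only [h4, mul_div_cancel_right₀ _ h2] using hρ'))] with V hV
    split_ifs with h5
    · rfl
    · rw [hs _ (by rwa [norm_Lift hρ h5]), mul_zero]
  refine ⟨fun W => if W.fst = 0 then 0 else ‖W‖ ^ 2 / ρ ^ 2 * h (Z_Lift ρ W), fun W hW => ?_,
    fun c W => ?_, fun z hz => ?_, hz⟩
  · refine ContDiffAt.contDiffWithinAt ?_
    by_cases h1 : W.fst = 0
    · exact contDiffAt_const.congr_of_eventuallyEq (hz W hW h1)
    · refine ((((contDiff_norm_sq ℂ).contDiffAt.div_const (ρ ^ 2)).mul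
        (hh.contDiffAt.comp W (smooth_Lift ρ h1))).congr_of_eventuallyEq ?_)
      filter_upwards [hf.continuousAt.eventually_ne h1] with V hV
      exact if_neg hV
  · rcases eq_or_ne c 0 with rfl | hc
    · simp
    simp only [WithLp.smul_fst, smul_eq_mul, mul_eq_zero, hc, false_or, smul_Lift ρ hc, norm_smul]
    split_ifs <;> ring
  · simp only [if_neg (io_Lift hz).1, (io_Lift hz).2, norm_io hz]
    rw [div_self (pow_ne_zero 2 hρ.ne'), one_mul]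

end Vale.Agent.P209N
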