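import Vale.Agent.P209N.Bump
import Vale.Agent.P209N.Eta

/-! P209 necessity, file OneB (helper lemma names end in `_OneB`).

PLAN. `η` from `exists_eta` with `r2 = π ρ ^ 2`, `u y = η (π * ‖y‖ ^ 2)` (`contDiff_norm_sq ℂ`), `ρ1 = √(r1 / π)`, `k` from
`exists_bump`, `K = ψ '' closedBall 0 ρ1`. Chain rule for `k ∘ ψ = u` on the ball (`hasFDerivAt_norm_sq`):
`fderiv k (ψ y) (fderiv ψ y v) = 2 π θ * ip y v` with `θ = deriv η (π ‖y‖ ^ 2)`; `fderiv ψ y` is onto (`Emb.bij`).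
`orb`: for `z0 = ψ y` take `Y t = exp (2 π θ t I) • y`, `z t = ψ (Y t)`,
`z' t = fderiv ψ (Y t) ((2 π θ I) • Y t)` (`ContDiffOn.continuousOn_fderiv_of_isOpen`, `om_smul_left`); if `z t = z0`
then `y = 0` or `exp (2 π θ t I) = 1` (`Complex.exp_eq_one_iff`), so `θ = 0` as `|θ t| < 1`. For
`z0 ∉ ψ '' ball 0 ρ` take the constant curve (`k = 0` near `z0`). -/

namespace Vale.Agent.P209N

open Complex Metric Set Finset Filter Module
open scoped InnerProductSpace Real ComplexConjugate Topology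

variable {E : Type*} [NormedAddCommGroup E] [InnerProductSpace ℂ E] [NormedSpace ℝ E]
  [IsScalarTower ℝ ℂ E] [FiniteDimensional ℝ E]

theorem hasFDerivAt_u_OneB {η : ℝ → ℝ} (hη : ContDiff ℝ 2 η) (y : E) :
    HasFDerivAt (fun y : E => η (π * ‖y‖ ^ 2))
      (deriv η (π * ‖y‖ ^ 2) • (π • ((2 : ℝ) • ipL y))) y := by
  have h1 : HasFDerivAt (fun y : E => π * ‖y‖ ^ 2) (π • ((2 : ℝ) • ipL y)) y :=
    (hasFDerivAt_norm_sq y).const_mul π
  have h2 : HasDerivAt η (deriv η (π * ‖y‖ ^ 2)) (π * ‖y‖ ^ 2) :=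
    (hη.differentiable (by norm_num) _).hasDerivAt
  exact h2.comp_hasFDerivAt y h1

theorem diff_OneB {O : Set E} {ψ : E → E} {ρ : ℝ} (h : Emb O ψ ρ) {y : E}
    (hy : y ∈ ball (0 : E) ρ) : HasFDerivAt ψ (fderiv ℝ ψ y) y :=
  ((h.smooth.contDiffAt (isOpen_ball.mem_nhds hy)).differentiableAt (by norm_num)).hasFDerivAt

theorem chain_OneB {O : Set E} {ψ : E → E} {ρ : ℝ} (h : Emb O ψ ρ) {η : ℝ → ℝ}
    (hη : ContDiff ℝ 2 η) {k : E → ℝ} (hk : ContDiff ℝ 2 k)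
    (hku : ∀ y ∈ ball (0 : E) ρ, k (ψ y) = η (π * ‖y‖ ^ 2)) {y : E} (hy : y ∈ ball (0 : E) ρ)
    (v : E) : fderiv ℝ k (ψ y) (fderiv ℝ ψ y v) = 2 * π * deriv η (π * ‖y‖ ^ 2) * ip y v := by
  have h1 : HasFDerivAt (fun y => k (ψ y)) ((fderiv ℝ k (ψ y)).comp (fderiv ℝ ψ y)) y :=
    (hk.differentiable (by norm_num) _).hasFDerivAt.comp y (diff_OneB h hy)
  have h2 : (fun y => k (ψ y)) =ᶠ[𝓝 y] fun y : E => η (π * ‖y‖ ^ 2) := by
    filter_upwards [isOpen_ball.mem_nhds hy] with w hw using hku w hw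
  have h3 := (h1.congr_of_eventuallyEq h2.symm).unique (hasFDerivAt_u_OneB hη y)
  have h4 := congrArg (fun L : E →L[ℝ] ℝ => L v) h3
  simp only [ContinuousLinearMap.comp_apply, ContinuousLinearMap.smul_apply, ipL_apply,
    smul_eq_mul] at h4
  rw [h4]
  ring

theorem norm_rot_OneB (a : ℝ) (y : E) : ‖exp ((a : ℂ) * I) • y‖ = ‖y‖ := by
  rw [norm_smul, Complex.norm_exp_ofReal_mul_I, one_mul]

theorem hasDerivAt_rot_OneB (a : ℝ) (y : E) (t : ℝ) :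
    HasDerivAt (fun t : ℝ => exp (((a * t : ℝ) : ℂ) * I) • y)
      (((a : ℂ) * I) • exp (((a * t : ℝ) : ℂ) * I) • y) t := by
  have h1 : HasDerivAt (fun t : ℝ => ((a * t : ℝ) : ℂ) * I) ((a : ℂ) * I) t := by
    have h0 : HasDerivAt (fun t : ℝ => a * t) a t := by
      simpa using (hasDerivAt_id t).const_mul a
    exact h0.ofReal_comp.mul_const I
  have h2 := h1.cexp
  have h3 := ((ContinuousLinearMap.toSpanSingleton ℂ y).restrictScalars ℝ).hasFDerivAt.comp_hasDerivAt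
    t h2
  refine HasDerivAt.congr_deriv h3 ?_
  change (exp (((a * t : ℝ) : ℂ) * I) * ((a : ℂ) * I)) • y = _
  rw [smul_smul, mul_comm]

theorem theta_zero_OneB {θ t : ℝ} (hθ : |θ| < 1) (ht : t ∈ Set.Ioc (0 : ℝ) 1)
    (h : exp (((2 * π * θ * t : ℝ) : ℂ) * I) = 1) : θ = 0 := by
  obtain ⟨n, hn⟩ := Complex.exp_eq_one_iff.1 h
  have h1 : ((2 * π * θ * t : ℝ) : ℂ) = ((n * (2 * π) : ℝ) : ℂ) := by
    apply mul_right_cancel₀ I_ne_zero
    rw [hn]
    push_cast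
    ring
  have h2 : 2 * π * θ * t = n * (2 * π) := by exact_mod_cast h1
  have h3 : θ * t = n := by
    have hp : (2 * π) ≠ 0 := by positivity
    apply mul_left_cancel₀ hp
    linarith
  have h4 : |(n : ℝ)| < 1 := by
    rw [← h3, abs_mul, abs_of_pos ht.1]
    calc |θ| * t ≤ |θ| * 1 := mul_le_mul_of_nonneg_left ht.2 (abs_nonneg _)
      _ < 1 := by rwa [mul_one]
  have h5 : n = 0 := by
    have h6 : |n| < 1 := by exact_mod_cast h4
    exact Int.abs_lt_one_iff.1 h6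
  rw [h5, Int.cast_zero] at h3
  exact (mul_eq_zero.1 h3).resolve_right ht.1.ne'

theorem orb_OneB {O : Set E} {ψ : E → E} {ρ : ℝ} (h : Emb O ψ ρ) {η : ℝ → ℝ}
    (hη : ContDiff ℝ 2 η) (hd : ∀ x, |deriv η x| < 1) {k : E → ℝ} (hk : ContDiff ℝ 2 k)
    (hku : ∀ y ∈ ball (0 : E) ρ, k (ψ y) = η (π * ‖y‖ ^ 2)) {y : E} (hy : y ∈ ball (0 : E) ρ) :
    ∃ z z' : ℝ → E, z 0 = ψ y ∧ Continuous z' ∧
      (∀ t, HasDerivAt z (z' t) t ∧ z t ∈ O ∧ ∀ u, om (z' t) u = -fderiv ℝ k (z t) u) ∧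
      ∀ t ∈ Set.Ioc (0 : ℝ) 1, z t = ψ y → fderiv ℝ k (ψ y) = 0 := by
  obtain ⟨θ, hθ⟩ : ∃ θ, θ = deriv η (π * ‖y‖ ^ 2) := ⟨_, rfl⟩
  obtain ⟨Y, hY⟩ : ∃ Y : ℝ → E, Y = fun t : ℝ => exp (((2 * π * θ * t : ℝ) : ℂ) * I) • y :=
    ⟨_, rfl⟩
  have hn : ∀ t, ‖Y t‖ = ‖y‖ := fun t => by rw [hY]; exact norm_rot_OneB _ y
  have hb : ∀ t, Y t ∈ ball (0 : E) ρ := fun t => by
    rw [mem_ball_zero_iff, hn]; exact mem_ball_zero_iff.1 hy
  have hD : ∀ t, HasDerivAt Y ((((2 * π * θ : ℝ) : ℂ) * I) • Y t) t := fun t => by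
    rw [hY]; exact hasDerivAt_rot_OneB (2 * π * θ) y t
  have hc : Continuous Y := continuous_iff_continuousAt.2 fun t => (hD t).continuousAt
  refine ⟨fun t => ψ (Y t), fun t => fderiv ℝ ψ (Y t) ((((2 * π * θ : ℝ) : ℂ) * I) • Y t), ?_, ?_,
    fun t => ⟨(diff_OneB h (hb t)).comp_hasDerivAt t (hD t), h.maps (hb t), fun u => ?_⟩,
    fun t ht he => ?_⟩
  · simp [hY]
  · have h1 : ContinuousOn (fderiv ℝ ψ) (ball 0 ρ) :=
      h.smooth.continuousOn_fderiv_of_isOpen isOpen_ball (by norm_num)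
    exact (h1.comp_continuous hc hb).clm_apply (hc.const_smul _)
  · obtain ⟨v, rfl⟩ := (h.bij (hb t)).2 u
    rw [h.symp _ (hb t), chain_OneB h hη hk hku (hb t), hn, ← hθ, om_smul_left]
    simp
  · have h1 : Y t = y := h.inj (hb t) hy he
    have h2 : θ = 0 ∨ y = 0 := by
      by_cases h0 : y = 0
      · exact Or.inr h0
      · left
        refine theta_zero_OneB (hθ ▸ hd _) ht ?_
        rw [hY] at h1
        have h3 : (exp (((2 * π * θ * t : ℝ) : ℂ) * I) - 1) • y = 0 := by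
          rw [sub_smul, one_smul]; exact sub_eq_zero.2 h1
        exact sub_eq_zero.1 ((smul_eq_zero.1 h3).resolve_right h0)
    ext u
    obtain ⟨v, rfl⟩ := (h.bij hy).2 u
    rw [chain_OneB h hη hk hku hy, ← hθ]
    rcases h2 with h2 | h2
    · simp [h2]
    · simp [h2, ip_zero_left]

theorem exists_one {O : Set E} {ψ : E → E} {ρ : ℝ} (h : Emb O ψ ρ) {c : ℝ} (hc0 : c ≠ 0)
    (hc : |c| < π * ρ ^ 2) : ∃ k : E → ℝ, One O c k (ψ 0) := by
  obtain ⟨η, hη, h0, ⟨r1, hr0, hr1, hz⟩, hd, hcr⟩ := exists_eta hc0 hc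
  have hu : ContDiff ℝ 2 fun y : E => η (π * ‖y‖ ^ 2) :=
    hη.comp (contDiff_const.mul (contDiff_norm_sq ℂ))
  have hρ1 : √(r1 / π) < ρ := by
    rw [Real.sqrt_lt' h.pos, div_lt_iff₀ Real.pi_pos]
    linarith
  have hz' : ∀ y : E, √(r1 / π) < ‖y‖ → η (π * ‖y‖ ^ 2) = 0 := fun y hy => by
    apply hz
    have h1 : 0 < ‖y‖ := lt_of_le_of_lt (Real.sqrt_nonneg _) hy
    rw [Real.sqrt_lt' h1, div_lt_iff₀ Real.pi_pos] at hy
    linarith
  obtain ⟨k, hk, hku, hk0⟩ := exists_bump h hu hρ1 hz'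
  have hsub : closedBall (0 : E) √(r1 / π) ⊆ ball 0 ρ := closedBall_subset_ball hρ1
  haveI : ProperSpace E := FiniteDimensional.proper_real E
  have hK : IsCompact (ψ '' closedBall (0 : E) √(r1 / π)) :=
    (isCompact_closedBall _ _).image_of_continuousOn (h.smooth.continuousOn.mono hsub)
  have h0b : (0 : E) ∈ ball (0 : E) ρ := mem_ball_self h.pos
  refine ⟨k, hk, ⟨_, hK, ?_, hk0⟩, h.maps h0b, ?_, ?_, fun z hz0 => ?_, fun z0 hz0 => ?_⟩
  · rintro _ ⟨y, hy, rfl⟩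
    exact h.maps (hsub hy)
  · rw [hku 0 h0b]
    simpa using h0
  · ext u
    obtain ⟨v, rfl⟩ := (h.bij h0b).2 u
    rw [chain_OneB h hη hk hku h0b, ip_zero_left]
    simp
  · by_cases hm : z ∈ ψ '' closedBall (0 : E) √(r1 / π)
    · obtain ⟨y, hy, rfl⟩ := hm
      have h1 := chain_OneB h hη hk hku (hsub hy) y
      rw [hz0, ip_self] at h1
      by_cases hy0 : y = 0
      · right; rw [hy0]
      · left
        rw [hku y (hsub hy)]
        apply hcr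
        have h2 : 0 < ‖y‖ := norm_pos_iff.2 hy0
        have h3 : 2 * π * ‖y‖ ^ 2 ≠ 0 := by positivity
        apply mul_left_cancel₀ h3
        simp only [ContinuousLinearMap.zero_apply] at h1
        linarith
    · exact Or.inl (hk0 z hm)
  · by_cases hm : z0 ∈ ψ '' closedBall (0 : E) √(r1 / π)
    · obtain ⟨y, hy, rfl⟩ := hm
      exact orb_OneB h hη hd hk hku (hsub hy)
    · have h1 : k =ᶠ[𝓝 z0] fun _ => 0 := by
        filter_upwards [hK.isClosed.isOpen_compl.mem_nhds hm] with w hw using hk0 w hw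
      have h2 : fderiv ℝ k z0 = 0 := by rw [h1.fderiv_eq]; simp
      refine ⟨fun _ => z0, fun _ => 0, rfl, continuous_const,
        fun t => ⟨hasDerivAt_const _ _, hz0, fun u => ?_⟩, fun _ _ _ => h2⟩
      rw [h2, om_zero_left]
      simp

end Vale.Agent.P209N
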