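import Vale.Agent.P209N.Defs

/-! P209 necessity, file Prep (helper lemma names end in `_Prep`).

PLAN. `e = PiLp.continuousLinearEquiv 2 ℝ (fun _ : Fin n => ℂ)` (`e z = z.ofLp`); `om x y = omega x.ofLp y.ofLp`
(`PiLp.inner_apply`), `‖x‖ ^ 2 = ∑ j, ‖x j‖ ^ 2` (`EuclideanSpace.norm_sq_eq` / `PiLp.norm_sq_eq_of_L2`), so
`e x ∈ cball n r ↔ ‖x‖ ≤ √(r / π)`. `prep_one`: `ψ = e.symm ∘ f ∘ e`; the open set
`V = e ⁻¹' U ∩ ψ ⁻¹' O` (`ContinuousOn.isOpen_inter_preimage`) contains `closedBall 0 √(r / π)`, hence a larger ball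
(`IsCompact.exists_thickening_subset_open`, `thickening_closedBall`);
`fderiv ψ y v = e.symm (fderiv f (e y) (e v))`. `prep_two`: the two images in `Eu n` are disjoint compact
sets; separate them (`SeparatedNhds.of_isCompact_isCompact` / `normal_separation`) and intersect with the ball. -/

namespace Vale.Agent.P209N

open Complex Metric Set Finset Filter Module
open scoped InnerProductSpace Real ComplexConjugate Topology

/-- complex Euclidean space -/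
abbrev Eu (n : ℕ) := EuclideanSpace ℂ (Fin n)

theorem om_eq_Prep {n : ℕ} (x y : Eu n) : om x y = P209.omega x.ofLp y.ofLp := by
  simp only [om, P209.omega, PiLp.inner_apply, im_sum]
  refine Finset.sum_congr rfl fun j _ => ?_
  simp only [RCLike.inner_apply, mul_im, conj_re, conj_im]
  ring

theorem cball_Prep {n : ℕ} {r : ℝ} (hr : 0 ≤ r) (x : Eu n) :
    x.ofLp ∈ P209.cball n r ↔ ‖x‖ ≤ √(r / π) := by
  rw [Real.le_sqrt (norm_nonneg _) (div_nonneg hr Real.pi_pos.le), le_div_iff₀ Real.pi_pos,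
    EuclideanSpace.norm_sq_eq, mul_comm]
  rfl

theorem oball_Prep {n : ℕ} {r : ℝ} {x : Eu n} (h : x.ofLp ∈ P209.oball n r) :
    ‖x‖ < √(r / π) := by
  refine Real.lt_sqrt_of_sq_lt ?_
  rw [lt_div_iff₀ Real.pi_pos, EuclideanSpace.norm_sq_eq, mul_comm]
  exact h

theorem compact_Prep {n : ℕ} {r : ℝ} {f : (Fin n → ℂ) → Fin n → ℂ} (hr : 0 < r)
    (h : P209.IsSympEmb n r f) :
    IsCompact ((fun x : Eu n => (WithLp.toLp 2 (f x.ofLp) : Eu n)) '' closedBall 0 √(r / π)) := by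
  obtain ⟨U, -, h2, h3, -⟩ := h
  refine (isCompact_closedBall _ _).image_of_continuousOn ?_
  exact (PiLp.continuous_toLp 2 _).comp_continuousOn (h3.continuousOn.comp
    (PiLp.continuous_ofLp 2 _).continuousOn fun x hx =>
      h2 ((cball_Prep hr.le x).2 (mem_closedBall_zero_iff.1 hx)))

theorem prep_one {n : ℕ} {r : ℝ} {f : (Fin n → ℂ) → Fin n → ℂ} (hr : 0 < r)
    (h : P209.IsSympEmb n r f) {O : Set (Eu n)} (hO : IsOpen O)
    (hm : ∀ z ∈ P209.cball n r, WithLp.toLp 2 (f z) ∈ O) :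
    ∃ (ψ : Eu n → Eu n) (ρ : ℝ), Emb O ψ ρ ∧ r < π * ρ ^ 2 := by
  obtain ⟨U, h1, h2, h3, h4, h5⟩ := h
  obtain ⟨e, he, he'⟩ : ∃ e : Eu n ≃L[ℝ] (Fin n → ℂ), (∀ z, e z = z.ofLp) ∧
      ∀ z, e.symm z = WithLp.toLp 2 z :=
    ⟨PiLp.continuousLinearEquiv 2 ℝ fun _ : Fin n => ℂ, fun _ => rfl, fun _ => rfl⟩
  have s1 : ContDiffOn ℝ 2 (e.symm ∘ f ∘ e) (e ⁻¹' U) :=
    e.symm.contDiff.comp_contDiffOn ((h3.of_le (ENat.LEInfty.out)).comp
      e.contDiff.contDiffOn fun _ hx => hx)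
  have o1 : IsOpen (e ⁻¹' U ∩ (e.symm ∘ f ∘ e) ⁻¹' O) :=
    s1.continuousOn.isOpen_inter_preimage (h1.preimage e.continuous) hO
  have c1 : closedBall (0 : Eu n) √(r / π) ⊆ e ⁻¹' U ∩ (e.symm ∘ f ∘ e) ⁻¹' O := fun x hx => by
    have := (cball_Prep hr.le x).2 (mem_closedBall_zero_iff.1 hx)
    refine ⟨by rw [Set.mem_preimage, he]; exact h2 this, ?_⟩
    simp only [Set.mem_preimage, Function.comp_apply, he, he']
    exact hm _ this
  obtain ⟨δ, hδ, c2⟩ := (isCompact_closedBall _ _).exists_thickening_subset_open o1 c1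
  rw [thickening_closedBall hδ (Real.sqrt_nonneg _)] at c2
  have p1 := Real.sqrt_nonneg (r / π)
  refine ⟨e.symm ∘ f ∘ e, δ + √(r / π), ⟨by linarith, s1.mono fun x hx => (c2 hx).1,
    fun x hx y hy hxy => e.injective (h4 (c2 hx).1 (c2 hy).1 (e.symm.injective hxy)),
    fun x hx => (c2 hx).2, fun y hy u v => ?_⟩, ?_⟩
  · rw [e.symm.comp_fderiv, e.comp_right_fderiv, om_eq_Prep, om_eq_Prep, ← he, ← he, ← he, ← he]
    simp only [ContinuousLinearMap.comp_apply, ContinuousLinearEquiv.coe_coe,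
      ContinuousLinearEquiv.apply_symm_apply]
    exact h5 _ (c2 hy).1 _ _
  · have a1 : √(r / π) ^ 2 = r / π := Real.sq_sqrt (div_nonneg hr.le Real.pi_pos.le)
    rw [← div_lt_iff₀' Real.pi_pos]
    nlinarith

theorem prep_two {n k : ℕ} {r : Fin k → ℝ} {R : ℝ} (hr : ∀ i, 0 < r i) (h : P209.Packs n r R)
    {i j : Fin k} (hij : i ≠ j) :
    ∃ (O1 O2 : Set (Eu n)) (ψ1 ψ2 : Eu n → Eu n) (ρ1 ρ2 : ℝ), Disjoint O1 O2 ∧
      O1 ⊆ ball 0 √(R / π) ∧ O2 ⊆ ball 0 √(R / π) ∧ Emb O1 ψ1 ρ1 ∧ Emb O2 ψ2 ρ2 ∧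
      r i < π * ρ1 ^ 2 ∧ r j < π * ρ2 ^ 2 := by
  obtain ⟨f, h1, h2, h3⟩ := h
  have d : Disjoint ((fun x : Eu n => (WithLp.toLp 2 (f i x.ofLp) : Eu n)) '' closedBall 0 √(r i / π))
      ((fun x : Eu n => (WithLp.toLp 2 (f j x.ofLp) : Eu n)) '' closedBall 0 √(r j / π)) := by
    rw [Set.disjoint_left]
    rintro _ ⟨x, hx, rfl⟩ ⟨y, hy, e⟩
    exact Set.disjoint_left.1 (h3 i j hij)
      ⟨_, (cball_Prep (hr i).le x).2 (mem_closedBall_zero_iff.1 hx), rfl⟩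
      ⟨_, (cball_Prep (hr j).le y).2 (mem_closedBall_zero_iff.1 hy), congrArg WithLp.ofLp e⟩
  obtain ⟨O1, O2, o1, o2, s1, s2, d2⟩ := SeparatedNhds.of_isCompact_isCompact
    (compact_Prep (hr i) (h1 i)) (compact_Prep (hr j) (h1 j)) d
  have key : ∀ l, ∀ O : Set (Eu n), IsOpen O →
      (fun x : Eu n => (WithLp.toLp 2 (f l x.ofLp) : Eu n)) '' closedBall 0 √(r l / π) ⊆ O →
      ∃ (ψ : Eu n → Eu n) (ρ : ℝ), Emb (O ∩ ball 0 √(R / π)) ψ ρ ∧ r l < π * ρ ^ 2 :=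
    fun l O hO hs => prep_one (hr l) (h1 l) (hO.inter isOpen_ball) fun z hz =>
      ⟨hs ⟨WithLp.toLp 2 z, mem_closedBall_zero_iff.2 ((cball_Prep (hr l).le _).1 hz), rfl⟩,
        mem_ball_zero_iff.2 (oball_Prep (h2 l ⟨z, hz, rfl⟩))⟩
  obtain ⟨ψ1, ρ1, a1, b1⟩ := key i O1 o1 s1
  obtain ⟨ψ2, ρ2, a2, b2⟩ := key j O2 o2 s2
  exact ⟨_, _, ψ1, ψ2, ρ1, ρ2, d2.mono Set.inter_subset_left Set.inter_subset_left,
    Set.inter_subset_right, Set.inter_subset_right, a1, a2, b1, b2⟩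

end Vale.Agent.P209N
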