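import Vale.Agent.P209N.Defs

/-! P209 necessity, file TwoB (helper lemma names end in `_TwoB`).

PLAN. If `z ∉ K2` (for instance `z ∈ O1`) then `k2 = 0` near `z` (the complement of a compact set is open), so
the sum has the value and the derivative of `k1` at `z` (`Filter.EventuallyEq.fderiv_eq`); symmetrically for
`z ∉ K1`. `supp`: `exists_lt_subset_ball` for `K1 ∪ K2` (`FiniteDimensional.proper_real`). `orb`: use the curve of
`k1` in `O1`, of `k2` in `O2`, a constant curve elsewhere. -/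

namespace Vale.Agent.P209N

open Complex Metric Set Finset Filter Module
open scoped InnerProductSpace Real ComplexConjugate Topology

variable {E : Type*} [NormedAddCommGroup E] [InnerProductSpace ℂ E] [NormedSpace ℝ E]
  [IsScalarTower ℝ ℂ E] [FiniteDimensional ℝ E]

theorem near_TwoB {F : Type*} [NormedAddCommGroup F] [NormedSpace ℝ F] {k1 k2 : F → ℝ} {K : Set F}
    (hK : IsCompact K) (h0 : ∀ z ∉ K, k2 z = 0) {z : F} (hz : z ∉ K) :
    fderiv ℝ (fun z => k1 z + k2 z) z = fderiv ℝ k1 z ∧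
      fderiv ℝ (fun z => k2 z + k1 z) z = fderiv ℝ k1 z := by
  have hn : ∀ᶠ y in 𝓝 z, y ∉ K := hK.isClosed.isOpen_compl.mem_nhds hz
  constructor
  · refine Filter.EventuallyEq.fderiv_eq ?_
    filter_upwards [hn] with y hy
    rw [h0 y hy, add_zero]
  · refine Filter.EventuallyEq.fderiv_eq ?_
    filter_upwards [hn] with y hy
    rw [h0 y hy, zero_add]

theorem zero_TwoB {F : Type*} [NormedAddCommGroup F] [NormedSpace ℝ F] {k : F → ℝ} {K : Set F}
    (hK : IsCompact K) (h0 : ∀ z ∉ K, k z = 0) {z : F} (hz : z ∉ K) : fderiv ℝ k z = 0 := by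
  have hn : ∀ᶠ y in 𝓝 z, y ∉ K := hK.isClosed.isOpen_compl.mem_nhds hz
  have : k =ᶠ[𝓝 z] fun _ => (0 : ℝ) := by
    filter_upwards [hn] with y hy
    exact h0 y hy
  rw [this.fderiv_eq]
  simp

theorem exists_slow {O1 O2 : Set E} {ρ a b : ℝ} {k1 k2 : E → ℝ} {p q : E} (hd : Disjoint O1 O2)
    (h1 : O1 ⊆ ball 0 ρ) (h2 : O2 ⊆ ball 0 ρ) (o1 : One O1 (-a) k1 p) (o2 : One O2 b k2 q) :
    Slow ρ a b (fun z => k1 z + k2 z) p q := by
  obtain ⟨K1, hK1, hK1O, hk1⟩ := o1.supp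
  obtain ⟨K2, hK2, hK2O, hk2⟩ := o2.supp
  have n2 : ∀ z ∈ O1, z ∉ K2 := fun z hz hz2 => Set.disjoint_left.1 hd hz (hK2O hz2)
  have n1 : ∀ z ∈ O2, z ∉ K1 := fun z hz hz1 => Set.disjoint_left.1 hd (hK1O hz1) hz
  have d1 : ∀ z ∉ K2, fderiv ℝ (fun z => k1 z + k2 z) z = fderiv ℝ k1 z := fun z hz =>
    (near_TwoB hK2 hk2 hz).1
  have d2 : ∀ z ∉ K1, fderiv ℝ (fun z => k1 z + k2 z) z = fderiv ℝ k2 z := fun z hz =>
    (near_TwoB hK1 hk1 hz).2
  refine ⟨o1.smooth.add o2.smooth, ?_, ⟨?_, ?_, ?_⟩, ⟨?_, ?_, ?_⟩, ?_, ?_⟩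
  · haveI : ProperSpace E := FiniteDimensional.proper_real E
    obtain ⟨r, hr, hsub⟩ := exists_lt_subset_ball (hK1.union hK2).isClosed
      (Set.union_subset (hK1O.trans h1) (hK2O.trans h2))
    refine ⟨r, hr, fun z hz => ?_⟩
    have hz' : z ∉ K1 ∪ K2 := fun h => by
      have := hsub h
      rw [mem_ball_zero_iff] at this
      linarith
    rw [hk1 z fun h => hz' (Or.inl h), hk2 z fun h => hz' (Or.inr h), add_zero]
  · exact mem_ball_zero_iff.1 (h1 o1.mem)
  · change k1 p + k2 p = -a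
    rw [hk2 p (n2 p o1.mem), add_zero, o1.val]
  · rw [d1 p (n2 p o1.mem), o1.crit0]
  · exact mem_ball_zero_iff.1 (h2 o2.mem)
  · change k1 q + k2 q = b
    rw [hk1 q (n1 q o2.mem), zero_add, o2.val]
  · rw [d2 q (n1 q o2.mem), o2.crit0]
  · intro z hz
    by_cases hz1 : z ∈ K1
    · have hz2 := n2 z (hK1O hz1)
      rw [d1 z hz2] at hz
      rcases o1.crit z hz with h | h
      · left
        change k1 z + k2 z = 0
        rw [h, hk2 z hz2, add_zero]
      · exact Or.inr (Or.inl h)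
    · rw [d2 z hz1] at hz
      rcases o2.crit z hz with h | h
      · left
        change k1 z + k2 z = 0
        rw [h, hk1 z hz1, add_zero]
      · exact Or.inr (Or.inr h)
  · intro z0 hz0
    by_cases hO1 : z0 ∈ O1
    · obtain ⟨z, z', e0, hc, hz, hfix⟩ := o1.orb z0 hO1
      refine ⟨z, z', e0, hc, fun t => ⟨(hz t).1, h1 (hz t).2.1, fun u => ?_⟩, fun t ht he => ?_⟩
      · rw [d1 _ (n2 _ (hz t).2.1)]
        exact (hz t).2.2 u
      · rw [d1 _ (n2 _ hO1)]
        exact hfix t ht he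
    by_cases hO2 : z0 ∈ O2
    · obtain ⟨z, z', e0, hc, hz, hfix⟩ := o2.orb z0 hO2
      refine ⟨z, z', e0, hc, fun t => ⟨(hz t).1, h2 (hz t).2.1, fun u => ?_⟩, fun t ht he => ?_⟩
      · rw [d2 _ (n1 _ (hz t).2.1)]
        exact (hz t).2.2 u
      · rw [d2 _ (n1 _ hO2)]
        exact hfix t ht he
    · have e : fderiv ℝ (fun z => k1 z + k2 z) z0 = 0 := by
        rw [d1 z0 fun h => hO2 (hK2O h)]
        exact zero_TwoB hK1 hk1 fun h => hO1 (hK1O h)
      refine ⟨fun _ => z0, fun _ => 0, rfl, continuous_const,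
        fun t => ⟨hasDerivAt_const t z0, hz0, fun u => ?_⟩, fun _ _ _ => e⟩
      rw [e, om_zero_left]
      simp

end Vale.Agent.P209N
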