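import Vale.Agent.P209.Defs

/-! P209 necessity, file Vol (helper lemma names end in `_Vol`).

PLAN. `abs_det_eq_one`: `omega` as a `LinearMap.BilinForm ℝ (Fin n → ℂ)` (`LinearMap.mk₂`), nondegenerate (test with
`I • u`); for a basis `b`: `LinearMap.BilinForm.toMatrix_comp`, `LinearMap.BilinForm.nondegenerate_iff_det_ne_zero`,
`LinearMap.det_toMatrix` give `det ^ 2 = 1`. `volume_lt`: `μ = Measure.addHaar` (`borelize`) or `volume`;
`cball n r = √r • cball n 1`, `Measure.addHaar_smul`, real dimension `2 n`, so `μ (cball n r) = r ^ n * μ (cball n 1)`,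
`0 < μ (cball n 1) < ∞` (compact, nonempty interior). `lintegral_abs_det_fderiv_eq_addHaar_image` gives
`μ (f i '' cball) = μ cball`. The union of the images is compact in `oball n R`, so it lies in `cball n R'` with
`0 ≤ R' < R`; `measure_iUnion` / `measure_biUnion_finset`; `pow_lt_pow_left₀`. -/

namespace Vale.Agent.P209N

open MeasureTheory
open scoped Pointwise

/-- the symplectic form as a bilinear form -/
noncomputable def omB_Vol (n : ℕ) : LinearMap.BilinForm ℝ (Fin n → ℂ) :=
  LinearMap.mk₂ ℝ P209.omega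
    (fun u u' v => by
      simp only [P209.omega, Pi.add_apply, Complex.add_re, Complex.add_im, ← Finset.sum_add_distrib]
      exact Finset.sum_congr rfl fun j _ => by ring)
    (fun c u v => by
      simp only [P209.omega, Pi.smul_apply, Complex.smul_re, Complex.smul_im, smul_eq_mul,
        Finset.mul_sum]
      exact Finset.sum_congr rfl fun j _ => by ring)
    (fun u v v' => by
      simp only [P209.omega, Pi.add_apply, Complex.add_re, Complex.add_im, ← Finset.sum_add_distrib]
      exact Finset.sum_congr rfl fun j _ => by ring)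
    (fun c u v => by
      simp only [P209.omega, Pi.smul_apply, Complex.smul_re, Complex.smul_im, smul_eq_mul,
        Finset.mul_sum]
      exact Finset.sum_congr rfl fun j _ => by ring)

theorem omega_I_Vol {n : ℕ} (u : Fin n → ℂ) :
    P209.omega u (Complex.I • u) = ∑ j, Complex.normSq (u j) := by
  simp only [P209.omega, Pi.smul_apply, smul_eq_mul, Complex.mul_re, Complex.mul_im, Complex.I_re,
    Complex.I_im, Complex.normSq_apply]
  exact Finset.sum_congr rfl fun j _ => by ring

theorem omega_comm_Vol {n : ℕ} (u v : Fin n → ℂ) : P209.omega u v = -P209.omega v u := by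
  simp only [P209.omega, ← Finset.sum_neg_distrib]
  exact Finset.sum_congr rfl fun j _ => by ring

theorem zero_of_Vol {n : ℕ} (u : Fin n → ℂ) (h : P209.omega u (Complex.I • u) = 0) : u = 0 := by
  rw [omega_I_Vol] at h
  funext j
  exact Complex.normSq_eq_zero.1
    ((Finset.sum_eq_zero_iff_of_nonneg fun i _ => Complex.normSq_nonneg (u i)).1 h j
      (Finset.mem_univ j))

theorem nondeg_Vol (n : ℕ) : (omB_Vol n).Nondegenerate := by
  refine ⟨fun u hu => zero_of_Vol u (hu _), fun u hu => zero_of_Vol u ?_⟩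
  rw [omega_comm_Vol, neg_eq_zero]
  exact hu _

theorem abs_det_eq_one {n : ℕ} (A : (Fin n → ℂ) →L[ℝ] Fin n → ℂ)
    (h : ∀ u v, P209.omega (A u) (A v) = P209.omega u v) : |A.det| = 1 := by
  classical
  let b := Module.finBasis ℝ (Fin n → ℂ)
  have e : (omB_Vol n).comp (A : (Fin n → ℂ) →ₗ[ℝ] Fin n → ℂ) A = omB_Vol n := by
    refine LinearMap.ext fun u => LinearMap.ext fun v => ?_
    exact h u v
  have hm := LinearMap.BilinForm.toMatrix_comp b b (omB_Vol n)
    (A : (Fin n → ℂ) →ₗ[ℝ] Fin n → ℂ) A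
  rw [e] at hm
  have hd := congrArg Matrix.det hm
  rw [Matrix.det_mul, Matrix.det_mul, Matrix.det_transpose, LinearMap.det_toMatrix] at hd
  have h0 := (LinearMap.BilinForm.nondegenerate_iff_det_ne_zero b).1 (nondeg_Vol n)
  have h1 : (LinearMap.det (A : (Fin n → ℂ) →ₗ[ℝ] Fin n → ℂ)) ^ 2 = 1 := by
    apply mul_left_cancel₀ h0
    linear_combination -hd
  exact (pow_eq_one_iff_of_nonneg (abs_nonneg A.det) two_ne_zero).1 (by rw [sq_abs]; exact h1)

/-- the capacity function -/
noncomputable def cap_Vol {n : ℕ} (z : Fin n → ℂ) : ℝ := Real.pi * ∑ j, ‖z j‖ ^ 2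

theorem cap_cont_Vol (n : ℕ) : Continuous (cap_Vol (n := n)) := by
  unfold cap_Vol
  fun_prop

theorem cap_smul_Vol {n : ℕ} (c : ℝ) (z : Fin n → ℂ) : cap_Vol (c • z) = c ^ 2 * cap_Vol z := by
  simp only [cap_Vol, Pi.smul_apply, norm_smul, Real.norm_eq_abs, mul_pow, sq_abs, ← Finset.mul_sum]
  ring

theorem compact_Vol (n : ℕ) (r : ℝ) : IsCompact (P209.cball n r) := by
  refine Metric.isCompact_of_isClosed_isBounded (isClosed_le (cap_cont_Vol n) continuous_const) ?_
  refine (Metric.isBounded_closedBall (x := (0 : Fin n → ℂ)) (r := √(r / Real.pi))).subset ?_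
  intro z hz
  rw [mem_closedBall_zero_iff, pi_norm_le_iff_of_nonneg (Real.sqrt_nonneg _)]
  intro j
  apply Real.le_sqrt_of_sq_le
  rw [le_div_iff₀ Real.pi_pos, mul_comm]
  refine le_trans (mul_le_mul_of_nonneg_left ?_ Real.pi_pos.le) hz
  exact Finset.single_le_sum (f := fun j => ‖z j‖ ^ 2) (fun i _ => sq_nonneg _) (Finset.mem_univ j)

theorem pos_Vol (n : ℕ) : 0 < volume (P209.cball n 1) := by
  have ho : IsOpen (P209.oball n 1) := isOpen_lt (cap_cont_Vol n) continuous_const
  refine lt_of_lt_of_le (ho.measure_pos volume ⟨0, ?_⟩)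
    (measure_mono fun z hz => (le_of_lt hz : cap_Vol z ≤ 1))
  simp [P209.oball]

theorem scale_Vol (n : ℕ) {r : ℝ} (hr : 0 < r) :
    volume (P209.cball n r) = ENNReal.ofReal (r ^ n) * volume (P209.cball n 1) := by
  have hs : 0 < √r := Real.sqrt_pos.2 hr
  have e : P209.cball n r = √r • P209.cball n 1 := by
    ext z
    rw [Set.mem_smul_set_iff_inv_smul_mem₀ hs.ne']
    change cap_Vol z ≤ r ↔ cap_Vol ((√r)⁻¹ • z) ≤ 1
    rw [cap_smul_Vol, inv_pow, Real.sq_sqrt hr.le, inv_mul_le_iff₀ hr, mul_one]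
  rw [e, Measure.addHaar_smul]
  have hf : Module.finrank ℝ (Fin n → ℂ) = 2 * n := by
    rw [Module.finrank_pi_fintype, Finset.sum_const, Finset.card_univ, Fintype.card_fin,
      Complex.finrank_real_complex, smul_eq_mul, mul_comm]
  rw [hf, pow_mul, Real.sq_sqrt hr.le, abs_of_pos (pow_pos hr n)]

theorem image_Vol {n : ℕ} {r : ℝ} {f : (Fin n → ℂ) → Fin n → ℂ} (hf : P209.IsSympEmb n r f) :
    volume (f '' P209.cball n r) = volume (P209.cball n r) ∧ IsCompact (f '' P209.cball n r) := by
  obtain ⟨U, hU, hsub, hsm, hinj, hom⟩ := hf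
  refine ⟨?_, (compact_Vol n r).image_of_continuousOn (hsm.continuousOn.mono hsub)⟩
  have hd : ∀ x ∈ P209.cball n r, HasFDerivWithinAt f (fderiv ℝ f x) (P209.cball n r) x := by
    intro x hx
    exact ((hsm.contDiffAt (hU.mem_nhds (hsub hx))).differentiableAt
      (by simp)).hasFDerivAt.hasFDerivWithinAt
  rw [← lintegral_abs_det_fderiv_eq_addHaar_image volume (compact_Vol n r).measurableSet hd
    (hinj.mono hsub)]
  rw [setLIntegral_congr_fun (g := fun _ => 1) (compact_Vol n r).measurableSet, setLIntegral_one]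
  intro x hx
  simp only [abs_det_eq_one _ (hom x (hsub hx)), ENNReal.ofReal_one]

theorem volume_lt {n k : ℕ} (hn : 1 ≤ n) {r : Fin k → ℝ} {R : ℝ} (hr : ∀ i, 0 < r i) (hR : 0 < R)
    (h : P209.Packs n r R) : ∑ i, r i ^ n < R ^ n := by
  obtain ⟨f, hf, hsub, hdis⟩ := h
  have hK : IsCompact (⋃ i, f i '' P209.cball n (r i)) :=
    isCompact_iUnion fun i => (image_Vol (hf i)).2
  obtain ⟨δ, hδ, hle⟩ := hK.exists_forall_le' (f := fun z => R - cap_Vol z) (a := 0)
    (continuous_const.sub (cap_cont_Vol n)).continuousOn (fun z hz => by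
      obtain ⟨i, hi⟩ := Set.mem_iUnion.1 hz
      exact sub_pos.2 (hsub i hi))
  have hR' : 0 < max (R - δ) (R / 2) := lt_max_of_lt_right (half_pos hR)
  have hlt : max (R - δ) (R / 2) < R := max_lt (sub_lt_self R hδ) (half_lt_self hR)
  have hin : (⋃ i, f i '' P209.cball n (r i)) ⊆ P209.cball n (max (R - δ) (R / 2)) := by
    intro z hz
    have := hle z hz
    change cap_Vol z ≤ _
    exact le_max_of_le_left (by linarith)
  have hm := measure_mono (μ := volume) hin
  rw [measure_iUnion (fun i j hij => hdis i j hij)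
    (fun i => (image_Vol (hf i)).2.measurableSet), tsum_fintype, scale_Vol n hR',
    Finset.sum_congr rfl fun i _ => ((image_Vol (hf i)).1.trans (scale_Vol n (hr i))),
    ← Finset.sum_mul, ENNReal.mul_le_mul_iff_left (pos_Vol n).ne' (compact_Vol n 1).measure_lt_top.ne,
    ← ENNReal.ofReal_sum_of_nonneg fun i _ => (pow_pos (hr i) n).le,
    ENNReal.ofReal_le_ofReal_iff (pow_pos hR' n).le] at hm
  exact hm.trans_lt (pow_lt_pow_left₀ hlt hR'.le (by omega))

end Vale.Agent.P209N
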