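import Vale.Agent.P209N.NoFlow
import Vale.Agent.P209N.FlowL
import Vale.Agent.P209N.DynL
import Vale.Agent.P209N.TwoB
import Vale.Agent.P209N.OneB
import Vale.Agent.P209N.Prep
import Vale.Agent.P209N.Vol

/-! P209: both conditions are necessary. -/

namespace Vale.Agent.P209

open P209N
open scoped Real

theorem necessity {n k : ℕ} (hn : 1 ≤ n) (r : Fin k → ℝ) (R : ℝ) (hr : ∀ i, 0 < r i) (hR : 0 < R)
    (h : Packs n r R) : ∑ i, r i ^ n < R ^ n ∧ ∀ i j, i ≠ j → r i + r j < R := by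
  refine ⟨volume_lt hn hr hR h, fun i j hij => not_le.1 fun hle => ?_⟩
  obtain ⟨O1, O2, ψ1, ψ2, ρ1, ρ2, hd, h1, h2, e1, e2, l1, l2⟩ := prep_two hr h hij
  have hs : 0 < r i + r j := add_pos (hr i) (hr j)
  have hθ : R / (r i + r j) ≤ 1 := (div_le_one hs).2 hle
  have a0 : 0 < r i * (R / (r i + r j)) := mul_pos (hr i) (div_pos hR hs)
  have b0 : 0 < r j * (R / (r i + r j)) := mul_pos (hr j) (div_pos hR hs)
  obtain ⟨k1, o1⟩ := exists_one e1 (neg_ne_zero.2 a0.ne') (by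
    rw [abs_neg, abs_of_pos a0]
    exact (mul_le_of_le_one_right (hr i).le hθ).trans_lt l1)
  obtain ⟨k2, o2⟩ := exists_one e2 b0.ne' (by
    rw [abs_of_pos b0]
    exact (mul_le_of_le_one_right (hr j).le hθ).trans_lt l2)
  have hρ : 0 < √(R / π) := Real.sqrt_pos.2 (div_pos hR Real.pi_pos)
  obtain ⟨D⟩ := exists_dyn hρ (exists_slow hd h1 h2 o1 o2)
  obtain ⟨Φ⟩ := exists_flow D
  have e : π * √(R / π) ^ 2 = R := by
    rw [Real.sq_sqrt (div_pos hR Real.pi_pos).le, mul_div_cancel₀ _ Real.pi_pos.ne']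
  rw [e] at Φ
  refine no_flow Φ (div_pos a0 hR) (div_pos b0 hR) ?_
  rw [← add_div, ← add_mul, mul_div_cancel₀ _ hs.ne', div_self hR.ne']

end Vale.Agent.P209
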