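import Vale.Agent.P209N.Defs
import Vale.Agent.P209N.C.Main

/-! P209 necessity, file NoFlow: a conical flow gives a flow in the sense of `P209.C`. -/

namespace Vale.Agent.P209N

open Complex Metric Set Finset Filter Module
open scoped InnerProductSpace Real ComplexConjugate Topology

theorem ex_eq_NoFlow (s t : ℝ) (h : t = 2 * π * s) : exp ((t : ℂ) * I) = P209.C.ex s := by
  rw [P209.C.ex_eq, h]

theorem ex_int_NoFlow {s t : ℝ} (h : P209.C.ex s = P209.C.ex t) : ∃ n : ℤ, s = t + n := by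
  obtain ⟨n, hn⟩ := Complex.exp_eq_exp_iff_exists_int.1 h
  refine ⟨n, ?_⟩
  have h1 : ((2 * π : ℝ) : ℂ) * I ≠ 0 :=
    mul_ne_zero (ofReal_ne_zero.2 Real.two_pi_pos.ne') I_ne_zero
  have h2 : (s : ℂ) = t + n := mul_left_cancel₀ h1 (by push_cast; linear_combination hn)
  exact_mod_cast h2

variable {E : Type} [NormedAddCommGroup E] [InnerProductSpace ℂ E] [NormedSpace ℝ E]
  [IsScalarTower ℝ ℂ E] [FiniteDimensional ℂ E]

theorem no_flow {a b : ℝ} (Φ : Flow E a b) (ha : 0 < a) (hb : 0 < b) (hab : a + b = 1) :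
    False := by
  have hp : ∀ t, Φ.σ t Φ.p = P209.C.ex (-(t * a)) • Φ.p := fun t => by
    rw [Φ.hp, ex_eq_NoFlow (-(t * a)) _ (by ring)]
  have hq : ∀ t, Φ.σ t Φ.q = P209.C.ex (t * b) • Φ.q := fun t => by
    rw [Φ.hq, ex_eq_NoFlow (t * b) _ (by ring)]
  have C0 := Φ.C0
  refine P209.C.noFlow (Φ := Φ.σ) (p := Φ.p) (q := Φ.q) ha hb hab ⟨?_, ⟨Φ.C, C0, Φ.lip⟩, Φ.hom,
    Φ.zero, Φ.add, fun t ht => ⟨_, Φ.sym t ht⟩, Φ.p0, Φ.q0, hp, hq,
    fun t s w t0 t1 s0 s1 hw h => ?_⟩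
  · refine continuousOn_prod_of_continuousOn_lipschitzOnWith' _ ⟨Φ.C + 1, by positivity⟩
      (fun t ht => LipschitzOnWith.of_dist_le_mul fun x _ y _ => ?_) fun x _ => ?_
    · have h1 := Φ.lip t ht x y
      have h2 := norm_add_le (Φ.σ t x - Φ.σ t y - (x - y)) (x - y)
      rw [sub_add_cancel] at h2
      have h3 := mul_le_mul_of_nonneg_right (mul_le_of_le_one_right C0.le ht.2)
        (norm_nonneg (x - y))
      rw [dist_eq_norm, dist_eq_norm]
      change _ ≤ (Φ.C + 1) * _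
      linarith
    · refine (LipschitzOnWith.of_dist_le_mul (K := ⟨Φ.C * ‖x‖, by positivity⟩)
        fun t ht t' ht' => ?_).continuousOn
      rw [dist_eq_norm, Real.dist_eq]
      exact (Φ.cont t ht t' ht' x).trans_eq (mul_right_comm _ _ _)
  · have key : ∀ u : ℝ, Φ.σ t w = P209.C.ex u • w → ∃ n : ℤ, s = u + n := fun u hu =>
      ex_int_NoFlow (smul_left_injective ℂ hw (h.symm.trans hu))
    have ta := mul_pos t0 ha
    have tb := mul_pos t0 hb
    have tab : t * a + t * b ≤ 1 := by rw [← mul_add, hab, mul_one]; exact t1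
    rcases Φ.fix t ⟨t0, t1⟩ w _ h with e | ⟨d, e⟩ | ⟨d, e⟩
    · obtain ⟨n, hn⟩ := key 0 (by rw [P209.C.ex_zero, one_smul, e])
      have n0 : 0 < n := by exact_mod_cast (by linarith : (0 : ℝ) < n)
      have n1 : n < 1 := by exact_mod_cast (by linarith : (n : ℝ) < 1)
      omega
    · obtain ⟨n, hn⟩ := key (-(t * a)) (by rw [e, Φ.hom, hp, smul_comm])
      have n0 : 0 < n := by exact_mod_cast (by linarith : (0 : ℝ) < n)
      have n1 : n < 2 := by exact_mod_cast (by linarith : (n : ℝ) < 2)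
      obtain rfl : n = 1 := by omega
      exact Or.inl ⟨by rw [hn, Int.cast_one]; ring, d, e⟩
    · obtain ⟨n, hn⟩ := key (t * b) (by rw [e, Φ.hom, hq, smul_comm])
      have n0 : -1 < n := by exact_mod_cast (by linarith : (-1 : ℝ) < n)
      have n1 : n < 1 := by exact_mod_cast (by linarith : (n : ℝ) < 1)
      obtain rfl : n = 0 := by omega
      exact Or.inr ⟨by rw [hn, Int.cast_zero, add_zero], d, e⟩

end Vale.Agent.P209N
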